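import Vale.Agent.P058.Small

namespace Vale.Agent.P058

open Matrix TensorProduct

variable {d : ℕ} {ι : Type*} [Fintype ι] [DecidableEq ι]

/-- The tensor condition, in the form of a list of pairs of affine functions. -/
def TC (a : ι → Fin d → ℝ) : Prop :=
  ∃ L : List (Aff d × Aff d),
    (∀ i, (L.map fun p => ev (a i) p.1 ⊗ₜ[ℚ] ev (a i) p.2).sum = 0) ∧
    (L.map fun p => vecMulVec p.1.2 p.2.2).sum = 1

/-- The kernel of evaluation at a point. -/
def Iker (x : Fin d → ℝ) : Ideal (GR (Aff d)) := RingHom.ker (mapR (ev x))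

/-- The common kernel. -/
def K0 (a : ι → Fin d → ℝ) : Ideal (GR (Aff d)) := ⨅ i, Iker (a i)

/-- The ideal generated by translations by constants. -/
def cI (d : ℕ) : Ideal (GR (Aff d)) := Ideal.span (Set.range fun u : ℝ => br (cst u : Aff d) - 1)

lemma cI_negl (K : Ideal (GR (Aff d))) {x : GR (Aff d)} (hx : x ∈ cI d) : x ∈ Negl K := by
  have : ∀ r, r * x ∈ Negl K := by
    induction hx using Submodule.span_induction with
    | mem x hx =>
      obtain ⟨u, rfl⟩ := hx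
      intro r η hη
      rw [mul_comm]; exact Small.cst_mul u r hη
    | zero => intro r; simp
    | add x y _ _ hx hy => intro r; rw [mul_add]; exact (Negl K).add_mem (hx r) (hy r)
    | smul s x _ hx => intro r; rw [smul_eq_mul, ← mul_assoc]; exact hx _
  simpa using this 1

lemma aug_le_sup (x : Fin d → ℝ) : aug (Aff d) ≤ Iker x ⊔ cI d := by
  refine Ideal.span_le.2 ?_
  rintro _ ⟨φ, rfl⟩
  have e : br φ - 1 = (br φ - br (cst (ev x φ))) + (br (cst (ev x φ)) - 1) := by ring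
  change br φ - 1 ∈ Iker x ⊔ cI d
  rw [e]
  refine Submodule.add_mem_sup ?_ (Ideal.subset_span ⟨_, rfl⟩)
  simp [Iker, RingHom.mem_ker]

omit [Fintype ι] in
lemma aug_pow_le (a : ι → Fin d → ℝ) (s : Finset ι) :
    aug (Aff d) ^ s.card ≤ (⨅ i ∈ s, Iker (a i)) ⊔ cI d := by
  induction s using Finset.induction_on with
  | empty => simp
  | insert i s hi ih =>
    rw [Finset.card_insert_of_notMem hi, pow_succ, Finset.iInf_insert]
    refine (Ideal.mul_mono ih (aug_le_sup (a i))).trans ?_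
    rw [Ideal.sup_mul, Ideal.mul_sup, Ideal.mul_sup]
    refine sup_le (sup_le ?_ ?_) (sup_le ?_ ?_)
    · exact le_sup_of_le_left (Ideal.mul_le_inf.trans (le_of_eq (inf_comm _ _)))
    · exact le_sup_of_le_right Ideal.mul_le_right
    · exact le_sup_of_le_right Ideal.mul_le_left
    · exact le_sup_of_le_right Ideal.mul_le_right

lemma aug3_negl (a : ι → Fin d → ℝ) : ∀ x ∈ aug (Aff d) ^ 3, x ∈ Negl (K0 a) := by
  have base : ∀ x ∈ aug (Aff d) ^ (3 + Fintype.card ι), x ∈ Negl (K0 a) := by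
    intro x hx
    have h1 : aug (Aff d) ^ (3 + Fintype.card ι) ≤ (aug (Aff d) ^ 3 ⊓ K0 a) ⊔ cI d := by
      rw [pow_add]
      have h2 := aug_pow_le a Finset.univ
      simp only [Finset.mem_univ, iInf_pos, Finset.card_univ] at h2
      refine (Ideal.mul_mono le_rfl h2).trans ?_
      rw [Ideal.mul_sup]
      exact sup_le (le_sup_of_le_left Ideal.mul_le_inf) (le_sup_of_le_right Ideal.mul_le_right)
    obtain ⟨y, hy, z, hz, rfl⟩ := Submodule.mem_sup.1 (h1 hx)
    refine (Negl _).add_mem (fun η hη => ?_) (cI_negl _ hz)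
    exact (Small.of_mem hy.2 (wtR_aug3 hy.1)).mono hη.le
  have : ∀ n, (∀ x ∈ aug (Aff d) ^ (3 + n), x ∈ Negl (K0 a)) →
      ∀ x ∈ aug (Aff d) ^ 3, x ∈ Negl (K0 a) := by
    intro n
    induction n with
    | zero => simp
    | succ n ih => intro h; exact ih (negl_descend (by omega) h)
  exact this _ base

omit [Fintype ι] in
lemma lift_pow (a : ι → Fin d → ℝ) (ha : Function.Injective a) (i : ι) (s : Finset ι)
    (hs : i ∉ s) : aug ℝ ^ (3 + s.card) ≤
      (aug (Aff d) ^ 3 ⊓ ⨅ j ∈ s, Iker (a j)).map (mapR (ev (a i))) := by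
  induction s using Finset.induction_on with
  | empty =>
    simp only [Finset.card_empty, add_zero, Finset.notMem_empty, iInf_false, iInf_top, inf_top_eq,
      Ideal.map_pow]
    refine Ideal.pow_right_mono ?_ 3
    refine Ideal.span_le.2 ?_
    rintro _ ⟨u, rfl⟩
    have := Ideal.mem_map_of_mem (mapR (ev (a i))) (br_sub_one_mem (cst u : Aff d))
    simpa using this
  | insert j s hj ih =>
    have hij : i ≠ j := fun h => hs (h ▸ Finset.mem_insert_self _ _)
    have his : i ∉ s := fun h => hs (Finset.mem_insert_of_mem h)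
    have h1 : aug ℝ ≤ (Iker (a j)).map (mapR (ev (a i))) := by
      refine Ideal.span_le.2 ?_
      rintro _ ⟨u, rfl⟩
      obtain ⟨φ, h1, h2⟩ := exists_aff (ha.ne hij) u 0
      have h3 : br φ - 1 ∈ Iker (a j) := by simp [Iker, RingHom.mem_ker, h2]
      have := Ideal.mem_map_of_mem (mapR (ev (a i))) h3
      simpa [h1] using this
    rw [Finset.card_insert_of_notMem hj, ← add_assoc, pow_succ, Finset.iInf_insert]
    refine (Ideal.mul_mono (ih his) h1).trans ?_
    rw [← Ideal.map_mul]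
    refine Ideal.map_mono (Ideal.mul_le_inf.trans ?_)
    refine le_inf (inf_le_left.trans inf_le_left) (le_inf inf_le_right ?_)
    exact inf_le_left.trans inf_le_right

lemma exists_correction (a : ι → Fin d → ℝ) (ha : Function.Injective a) (x : GR (Aff d))
    (hx : ∀ i, mapR (ev (a i)) x ∈ aug ℝ ^ (3 + Fintype.card ι)) :
    ∃ y ∈ aug (Aff d) ^ 3, x - y ∈ K0 a := by
  have h : ∀ i, ∃ y ∈ aug (Aff d) ^ 3, mapR (ev (a i)) y = mapR (ev (a i)) x ∧
      ∀ j, j ≠ i → mapR (ev (a j)) y = 0 := by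
    intro i
    have h1 := lift_pow a ha i (Finset.univ.erase i) (by simp)
    have h2 : aug ℝ ^ (3 + Fintype.card ι) ≤ aug ℝ ^ (3 + (Finset.univ.erase i).card) :=
      Ideal.pow_le_pow_right (by
        have := Finset.card_le_univ (Finset.univ.erase i); omega)
    obtain ⟨y, hy, hy'⟩ := (Ideal.mem_map_iff_of_surjective _
      (mapR_surjective (ev_surjective _))).1 (h1 (h2 (hx i)))
    refine ⟨y, hy.1, hy', fun j hj => ?_⟩
    have := hy.2
    simp only [Finset.mem_erase, Finset.mem_univ, and_true, SetLike.mem_coe,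
      Submodule.mem_iInf] at this
    exact this j hj
  choose y hy hy1 hy2 using h
  refine ⟨∑ i, y i, Submodule.sum_mem _ fun i _ => hy i, ?_⟩
  simp only [K0, Submodule.mem_iInf, Iker, RingHom.mem_ker, map_sub, map_sum]
  intro i
  rw [Finset.sum_eq_single i (fun j _ hj => hy2 j i hj.symm) (by simp), hy1, sub_self]

omit [DecidableEq ι] [Fintype ι] in
lemma exists_high (a : ι → Fin d → ℝ) (x : GR (Aff d)) (hx2 : x ∈ aug (Aff d) ^ 2)
    (hx : ∀ i, mapR (ev (a i)) x ∈ aug ℝ ^ 3) (n : ℕ) :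
    ∃ (y : GR (Aff d)) (c : ℕ), 0 < c ∧ y ∈ aug (Aff d) ^ 2 ∧ y - c * x ∈ aug (Aff d) ^ 3 ∧
      ∀ i, mapR (ev (a i)) y ∈ aug ℝ ^ (3 + n) := by
  induction n with
  | zero => exact ⟨x, 1, one_pos, hx2, by simp, hx⟩
  | succ n ih =>
    obtain ⟨y, c, hc, hy2, hy3, hy⟩ := ih
    have h4 : 4 < 2 ^ (3 + n) := by
      rw [pow_add]; have := Nat.one_le_two_pow (n := n); omega
    refine ⟨((2 : ℕ) : GR (Aff d)) ^ (3 + n) * y - sc 2 y, (2 ^ (3 + n) - 4) * c,
      Nat.mul_pos (by omega) hc, ?_, ?_, ?_⟩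
    · exact Ideal.sub_mem _ (Ideal.mul_mem_left _ _ hy2) (sc_mem_pow 2 2 hy2)
    · have h1 := sc_pow_mem 2 2 hy2
      have h2 := Ideal.sub_mem _ (Ideal.mul_mem_left _
        (((2 ^ (3 + n) - 4 : ℕ) : GR (Aff d))) hy3) h1
      convert h2 using 1
      push_cast [h4.le]
      ring
    · intro i
      have h1 := (aug ℝ ^ (3 + n + 1)).neg_mem (sc_pow_mem 2 (3 + n) (hy i))
      have e : mapR (ev (a i)) (sc 2 y) = sc 2 (mapR (ev (a i)) y) :=
        mapR_comm _ _ _ _ (fun v => map_nsmul (ev (a i)) 2 v) y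
      rw [← add_assoc]
      convert h1 using 1
      rw [map_sub, e, map_mul, map_pow, map_natCast]; ring

section Quot

variable {K : Ideal (GR (Aff d))}

/-- Smallness in the quotient by negligible elements. -/
def SmallQ (K : Ideal (GR (Aff d))) (z : GR (Aff d) ⧸ Negl K) (r : ℝ) : Prop :=
  ∃ x, QuotientAddGroup.mk' (Negl K) x = z ∧ Small K x r

lemma SmallQ.mono {z : GR (Aff d) ⧸ Negl K} {r r' : ℝ} (h : SmallQ K z r) (hr : r ≤ r') :
    SmallQ K z r' := by
  obtain ⟨x, h1, h2⟩ := h; exact ⟨x, h1, h2.mono hr⟩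

lemma SmallQ.sub {z z' : GR (Aff d) ⧸ Negl K} {r r' : ℝ} (h : SmallQ K z r)
    (h' : SmallQ K z' r') : SmallQ K (z - z') (r + r') := by
  obtain ⟨x, h1, h2⟩ := h; obtain ⟨x', h1', h2'⟩ := h'
  exact ⟨x - x', by rw [map_sub, h1, h1'], by simpa [sub_eq_add_neg] using h2.add h2'.neg⟩

lemma SmallQ.eq_zero {z : GR (Aff d) ⧸ Negl K} (h : ∀ η : ℝ, 0 < η → SmallQ K z η) : z = 0 := by
  obtain ⟨x, rfl⟩ := QuotientAddGroup.mk'_surjective (Negl K) z
  refine (QuotientAddGroup.eq_zero_iff x).2 fun η hη => ?_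
  obtain ⟨y, h1, h2⟩ := h (η / 2) (by positivity)
  have h3 : x - y ∈ Negl K := by
    rw [← QuotientAddGroup.eq_zero_iff]
    change QuotientAddGroup.mk' (Negl K) (x - y) = 0
    rw [map_sub, h1, sub_self]
  simpa using (h3 (η / 2) (by positivity)).add h2

lemma small_second (γ : ℝ →+ ℝ →+ (GR (Aff d) ⧸ Negl K))
    (hγ : ∀ x y, SmallQ K (γ x y) (3 * (x ^ 2 + y ^ 2))) (x : ℝ) {η : ℝ} (hη : 0 < η) :
    ∃ ε > 0, ∀ δ : ℝ, |δ| < ε → SmallQ K (γ x δ) η := by
  obtain ⟨m, hm⟩ := exists_nat_gt (6 * x ^ 2 / η + 1)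
  have h0 : 0 ≤ 6 * x ^ 2 / η := by positivity
  have hm1 : (1 : ℝ) ≤ m := by linarith
  have hm0 : (0 : ℝ) < m := by linarith
  refine ⟨min 1 (η / (6 * m ^ 2)), by positivity, fun δ hδ => ?_⟩
  have e : γ x δ = γ (x / m) (m • δ) := by
    have e1 : x = m • (x / m) := by rw [nsmul_eq_mul]; field_simp
    conv_lhs => rw [e1, map_nsmul]
    rw [map_nsmul]; rfl
  rw [e]
  refine (hγ _ _).mono ?_
  have h1 : |δ| < 1 := lt_of_lt_of_le hδ (min_le_left _ _)
  have h2 : |δ| < η / (6 * m ^ 2) := lt_of_lt_of_le hδ (min_le_right _ _)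
  rw [lt_div_iff₀ (by positivity)] at h2
  have h3 : δ ^ 2 ≤ |δ| := by rw [← sq_abs]; nlinarith [abs_nonneg δ]
  have h4 : 6 * x ^ 2 < m * η := by
    have : 6 * x ^ 2 / η < m := by linarith
    rwa [div_lt_iff₀ hη] at this
  have h5 : (x / m) ^ 2 ≤ η / 6 := by
    rw [div_pow, div_le_iff₀ (by positivity)]
    nlinarith [mul_le_mul_of_nonneg_left hm1 (mul_pos hm0 hη).le]
  have h6 : (m • δ) ^ 2 ≤ η / 6 := by
    rw [nsmul_eq_mul, mul_pow]
    nlinarith [mul_le_mul_of_nonneg_left h3 (sq_nonneg (m : ℝ))]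
  linarith

lemma real_balanced (γ : ℝ →+ ℝ →+ (GR (Aff d) ⧸ Negl K))
    (hγ : ∀ x y, SmallQ K (γ x y) (3 * (x ^ 2 + y ^ 2))) (x y : ℝ) : γ x y = γ (x * y) 1 := by
  rw [← sub_eq_zero]
  refine SmallQ.eq_zero fun η hη => ?_
  obtain ⟨ε, hε, h1⟩ := small_second γ hγ x (half_pos hη)
  obtain ⟨ε', hε', h2⟩ := small_second γ.flip (fun x y => by
    simpa [add_comm] using hγ y x) 1 (half_pos hη)
  obtain ⟨ρ, hρ⟩ := exists_rat_near y (lt_min hε (div_pos hε' (by positivity : 0 < |x| + 1)))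
  have a1 := h1 _ (lt_of_lt_of_le hρ (min_le_left _ _))
  have a2 := h2 (x * (y - ρ)) (by
    have := lt_of_lt_of_le hρ (min_le_right _ _)
    rw [lt_div_iff₀ (by positivity)] at this
    rw [abs_mul]; nlinarith [abs_nonneg (y - ρ)])
  have a3 := bil_rat_balanced γ ρ x 1
  have e : γ x y - γ (x * y) 1 = γ x (y - ρ) - γ.flip 1 (x * (y - ρ)) := by
    rw [AddMonoidHom.flip_apply, mul_sub, map_sub, map_sub, AddMonoidHom.sub_apply]
    simp only [Rat.smul_def, mul_one] at a3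
    rw [mul_comm x ρ, a3]; abel
  rw [e]
  simpa using a1.sub a2

end Quot

theorem abelian_relation (a : ι → Fin d → ℝ) (ha : Function.Injective a) (hT : TC a) {η : ℝ}
    (hη : 0 < η) : ∃ (b c : List (Aff d)) (D : ℝ), 0 < D ∧
      (∀ i, mapR (ev (a i)) (toR b) = mapR (ev (a i)) (toR c)) ∧
      wt b = wt c + D • (1 : Matrix (Fin d) (Fin d) ℝ) ∧ (wt c).trace ≤ η * D := by
  obtain ⟨L, hL1, hL2⟩ := hT
  set K := K0 a with hK
  let Θ : GR (Aff d) →+ GR (Aff d) ⧸ Negl K := QuotientAddGroup.mk' (Negl K)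
  have hΘ0 : ∀ x, Θ x = 0 ↔ x ∈ Negl K := fun x => QuotientAddGroup.eq_zero_iff x
  have hΘ : ∀ x ∈ aug (Aff d) ^ 3, Θ x = 0 := fun x hx => (hΘ0 x).2 (aug3_negl a x hx)
  let β := bil Θ hΘ
  have hβc : ∀ u ψ, β (cst u) ψ = 0 := fun u ψ =>
    (hΘ0 _).2 fun η hη => Small.cst_mul u _ hη
  have hβs : ∀ φ ψ, β φ ψ = β ψ φ := fun φ ψ => by simp [β, mul_comm]
  have hβsmall : ∀ φ ψ, SmallQ K (β φ ψ) (3 * (φ.2 ⬝ᵥ φ.2 + ψ.2 ⬝ᵥ ψ.2)) := by
    intro φ ψ
    refine ⟨(br (φ + ψ) + 1) - (br φ + br ψ), ?_, ?_⟩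
    · simp only [β, bil_apply, br_add]; congr 1; ring
    · refine (Small.of_pos ((Pos.br _).add Pos.one) ((Pos.br _).add (Pos.br _))).mono ?_
      simp only [map_add, wtR_br, wtR_one, add_zero, trace_add, trace_wt1, Prod.snd_add,
        add_dotProduct, dotProduct_add]
      have := dot_self_nonneg (φ.2 - ψ.2)
      simp only [sub_dotProduct, dotProduct_sub] at this
      linarith
  let E : Fin d → ℝ →+ Aff d := fun j => (AddMonoidHom.inr ℝ (Fin d → ℝ)).comp
    (AddMonoidHom.single (fun _ => ℝ) j)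
  have hE : ∀ j x, E j x = (0, Pi.single j x) := fun j x => rfl
  let γ : Fin d → Fin d → ℝ →+ ℝ →+ (GR (Aff d) ⧸ Negl K) := fun j l =>
    ((β.comp (E j)).flip.comp (E l)).flip
  have hγ : ∀ j l x y, γ j l x y = β (E j x) (E l y) := fun j l x y => rfl
  have hγb : ∀ j l x y, γ j l x y = γ j l (x * y) 1 := fun j l => real_balanced _ (by
    intro x y
    rw [hγ]
    refine (hβsmall _ _).mono (le_of_eq ?_)
    simp [hE, sq])
  let Ψ : Matrix (Fin d) (Fin d) ℝ →+ (GR (Aff d) ⧸ Negl K) :=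
    ∑ j, ∑ l, ((γ j l).flip 1).comp (Matrix.entryAddMonoidHom ℝ j l)
  have hΨ : ∀ M, Ψ M = ∑ j, ∑ l, γ j l (M j l) 1 := fun M => by
    simp [Ψ, AddMonoidHom.finsetSum_apply]
  have hdec : ∀ φ : Aff d, φ = cst φ.1 + ∑ j, E j (φ.2 j) := by
    intro φ
    ext
    · simp [cst, hE, Prod.fst_sum]
    · simp [cst, hE, Prod.snd_sum, Finset.univ_sum_single]
  have hβΨ : ∀ φ ψ, β φ ψ = Ψ (vecMulVec φ.2 ψ.2) := by
    intro φ ψ
    rw [hΨ]
    conv_lhs => rw [hdec φ, map_add, map_sum, AddMonoidHom.add_apply, hβc, zero_add,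
      AddMonoidHom.finsetSum_apply]
    refine Finset.sum_congr rfl fun j _ => ?_
    conv_lhs => rw [hdec ψ, map_add, map_sum, hβs _ (cst _), hβc, zero_add]
    refine Finset.sum_congr rfl fun l _ => ?_
    rw [← hγ, hγb, vecMulVec_apply]
  set κ0 : GR (Aff d) := (L.map fun p => (br p.1 - 1) * (br p.2 - 1)).sum with hκ0
  set ρ0 : GR (Aff d) := ∑ j, (br (E j 1) + br (-E j 1)) with hρ0
  have hρpos : Pos ρ0 := Pos.sum _ _ fun j _ => (Pos.br _).add (Pos.br _)
  have hΘ1 : Θ 1 = 0 := (hΘ0 _).2 fun η hη => by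
    have := Small.of_pos (K := K) Pos.one Pos.zero
    simpa using this.mono (by simpa using hη.le)
  have hΘκ : Θ κ0 = Θ ρ0 := by
    have e1 : Θ κ0 = Ψ 1 := by
      rw [← hL2, hκ0, map_list_sum, map_list_sum, List.map_map, List.map_map]
      congr 1
      refine List.map_congr_left fun p _ => ?_
      exact hβΨ p.1 p.2
    have e2 : Θ ρ0 = ∑ j, β (E j 1) (E j 1) := by
      rw [hρ0, map_sum]
      refine Finset.sum_congr rfl fun j _ => ?_
      have : β (E j 1) (E j 1) = -β (E j 1) (-E j 1) := by rw [map_neg, neg_neg]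
      rw [this]
      simp only [β, bil_apply]
      have e : (br (E j 1) - 1) * (br (-E j 1) - 1) = 1 + 1 - (br (E j 1) + br (-E j 1)) := by
        have : br (E j 1) * br (-E j 1) = 1 := by rw [← br_add]; simp
        linear_combination this
      rw [e, map_sub, map_add Θ 1 1, hΘ1]; simp
    rw [e1, e2]
    simp_rw [hβΨ]
    rw [← map_sum]
    congr 1
    ext p q
    simp [hE, vecMulVec_apply, Matrix.sum_apply, Pi.single_apply, Matrix.one_apply]
  have hwκ : wtR κ0 = (2 : ℝ) • (1 : Matrix (Fin d) (Fin d) ℝ) := by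
    have : ∀ L : List (Aff d × Aff d), wtR (L.map fun p => (br p.1 - 1) * (br p.2 - 1)).sum
        = (L.map fun p => vecMulVec p.1.2 p.2.2).sum
          + ((L.map fun p => vecMulVec p.1.2 p.2.2).sum)ᵀ := by
      intro L
      induction L with
      | nil => simp
      | cons p L ih =>
        simp only [List.map_cons, List.sum_cons, map_add, ih, wtR_mul, transpose_add]
        simp [transpose_vecMulVec]; abel
    rw [hκ0, this, hL2, transpose_one, two_smul]
  have hwρ : wtR ρ0 = (2 : ℝ) • (1 : Matrix (Fin d) (Fin d) ℝ) := by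
    rw [hρ0, map_sum]
    ext p q
    simp [hE, wt1, vecMulVec_apply, Matrix.sum_apply, Pi.single_apply, Matrix.one_apply,
      Finset.sum_add_distrib]
    split_ifs <;> norm_num
  have hκ2 : κ0 ∈ aug (Aff d) ^ 2 := by
    refine (aug (Aff d) ^ 2).list_sum_mem ?_
    intro x hx
    obtain ⟨p, _, rfl⟩ := List.mem_map.1 hx
    rw [pow_two]; exact Ideal.mul_mem_mul (br_sub_one_mem _) (br_sub_one_mem _)
  have hκ3 : ∀ i, mapR (ev (a i)) κ0 ∈ aug ℝ ^ 3 := by
    intro i
    have := mem_cube_of_tensor (L.map fun p => (ev (a i) p.1, ev (a i) p.2)) (by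
      rw [List.map_map]; exact hL1 i)
    rw [List.map_map] at this
    convert this using 1
    rw [hκ0, map_list_sum, List.map_map]
    congr 1
    refine List.map_congr_left fun p _ => ?_
    simp
  obtain ⟨y, c, hc, -, hy3, hy⟩ := exists_high a κ0 hκ2 hκ3 (Fintype.card ι)
  obtain ⟨z, hz3, hz⟩ := exists_correction a ha y hy
  have h3 : (y - z) - c * κ0 ∈ aug (Aff d) ^ 3 := by
    have := Ideal.sub_mem _ hy3 hz3
    convert this using 1; ring
  have hN : (y - z) - c * ρ0 ∈ Negl K := by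
    rw [← hΘ0]
    have e : (y - z) - c * ρ0 = ((y - z) - c * κ0) + c • κ0 - c • ρ0 := by
      simp only [nsmul_eq_mul]; ring
    rw [e, map_sub, map_add, hΘ _ h3, map_nsmul, map_nsmul, hΘκ]; simp
  obtain ⟨π, M, hπ, p, q, hp, hq, h1, h2, h4⟩ := hN η hη
  obtain ⟨b, hb⟩ := (((Pos.natCast c).mul hρpos).mul hπ.pos).add hp
  obtain ⟨c', rfl⟩ := hq
  have hc1 : (1 : ℝ) ≤ c := by exact_mod_cast hc
  have e : toR b - toR c' = (y - z) * π - (((y - z) - c * ρ0) * π - (p - toR c')) := by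
    rw [← hb]; ring
  refine ⟨b, c', 2 * c * M, by have := hπ.lt; positivity, ?_, ?_, ?_⟩
  · intro i
    have : toR b - toR c' ∈ K := by
      rw [e]; exact K.sub_mem (K.mul_mem_right _ hz) h1
    simp only [hK, K0, Submodule.mem_iInf, Iker, RingHom.mem_ker, map_sub] at this
    exact sub_eq_zero.1 (this i)
  · have e2 := congrArg wtR e
    have e3 : wtR (y - z) = (2 * c : ℝ) • (1 : Matrix (Fin d) (Fin d) ℝ) := by
      have := wtR_aug3 h3
      rw [map_sub, ← nsmul_eq_mul, map_nsmul, hwκ, sub_eq_zero] at this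
      rw [this, ← Nat.cast_smul_eq_nsmul ℝ, smul_smul, mul_comm]
    rw [map_sub, map_sub, h2, hπ.wtR_mul, e3, wtR_toR, wtR_toR, sub_zero, smul_smul] at e2
    rw [sub_eq_iff_eq_add'.1 e2]
    congr 2; ring
  · rw [wtR_toR] at h4
    have := hp.tr_nonneg
    have := hπ.lt
    nlinarith [mul_le_mul_of_nonneg_left hc1 (mul_pos hη hπ.lt).le]

end Vale.Agent.P058
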