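import Vale.Agent.P058.Nilp

namespace Vale.Agent.P058

open Matrix
open scoped commutatorElement

variable {d : ℕ} {ι : Type*} [Fintype ι] [DecidableEq ι]

lemma LC_in_N {F : Type*} [Group F] {Γ : ι → Type*} [∀ i, Group (Γ i)] (N : Subgroup (∀ i, Γ i))
    (φ : ∀ i, F →* Γ i) (hdiag : ∀ y, (fun i => φ i y) ∈ N)
    (hpair : ∀ i j, i ≠ j → ∀ y, ∃ ν ∈ N, ν i = φ i y ∧ ν j = 1)
    (k : ι → F) (hk : ∀ i, k i ∈ LC F (Fintype.card ι)) : (fun i => φ i (k i)) ∈ N := by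
  have key : ∀ i (s : Finset ι), i ∉ s → ∀ y ∈ LC F s.card,
      ∃ ν ∈ N, ν i = φ i y ∧ ∀ j ∈ s, ν j = 1 := by
    intro i s
    induction s using Finset.induction_on with
    | empty => intro _ y _; exact ⟨_, hdiag y, rfl, by simp⟩
    | insert j s hj ih =>
      intro hi y hy
      have hij : i ≠ j := fun h => hi (h ▸ Finset.mem_insert_self _ _)
      have his : i ∉ s := fun h => hi (Finset.mem_insert_of_mem h)
      rw [Finset.card_insert_of_notMem hj, Subgroup.mem_lowerCentralSeries_succ_iff] at hy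
      induction hy using Subgroup.closure_induction with
      | mem x hx =>
        obtain ⟨p, hp, q, -, rfl⟩ := hx
        obtain ⟨ν, hν, h1, h2⟩ := ih his p hp
        obtain ⟨μ, hμ, h3, h4⟩ := hpair i j hij q
        refine ⟨ν * μ * ν⁻¹ * μ⁻¹, N.mul_mem (N.mul_mem (N.mul_mem hν hμ) (N.inv_mem hν))
          (N.inv_mem hμ), ?_, ?_⟩
        · simp [commutatorElement_def, h1, h3]
        · intro l hl
          rcases Finset.mem_insert.1 hl with rfl | hl
          · simp [h4]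
          · simp [h2 l hl]
      | one => exact ⟨1, N.one_mem, by simp, by simp⟩
      | mul x y _ _ ihx ihy =>
        obtain ⟨ν, hν, h1, h2⟩ := ihx
        obtain ⟨μ, hμ, h3, h4⟩ := ihy
        exact ⟨ν * μ, N.mul_mem hν hμ, by simp [h1, h3], fun l hl => by simp [h2 l hl, h4 l hl]⟩
      | inv x _ ihx =>
        obtain ⟨ν, hν, h1, h2⟩ := ihx
        exact ⟨ν⁻¹, N.inv_mem hν, by simp [h1], fun l hl => by simp [h2 l hl]⟩
  refine Subgroup.pi_mem_of_mulSingle_mem _ fun i => ?_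
  obtain ⟨ν, hν, h1, h2⟩ := key i (Finset.univ.erase i) (by simp) (k i)
    ((⊤ : Subgroup F).lowerCentralSeries_antitone (Finset.card_le_univ _) (hk i))
  convert hν using 1
  ext j
  by_cases h : j = i
  · subst h; simp [h1]
  · simp [h, h2 j (by simp [h])]

omit [Fintype ι] [DecidableEq ι] in
lemma exists_path (a : ι → Fin d → ℝ) (ha : Function.Injective a)
    {Γ : ι → Type*} [∀ i, Group (Γ i)] (φ : ∀ i, FreeGroup ℝ →* Γ i)
    (hφ0 : ∀ i, φ i (FreeGroup.of 0) = 1)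
    (KH : Matrix (Fin d) (Fin d) ℝ → Set (∀ i, Γ i))
    (hmul : ∀ W W' x y, x ∈ KH W → y ∈ KH W' → x * y ∈ KH (W + W'))
    (hdg : ∀ y, (fun i => φ i y) ∈ KH 0)
    (hcol : ∀ ψ : Aff d, (fun i => φ i (FreeGroup.of (ev (a i) ψ))) ∈ KH (wt1 ψ))
    {i j : ι} (hij : i ≠ j) (x : ℝ) {ξ : ℝ} (hξ : 0 < ξ) :
    ∃ h ∈ KH (ξ • (1 : Matrix (Fin d) (Fin d) ℝ)), h i = φ i (FreeGroup.of x) ∧ h j = 1 := by
  classical
  set δ := a i - a j with hδ
  have hδ0 : 0 < δ ⬝ᵥ δ := dot_self_pos (sub_ne_zero.2 (ha.ne hij))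
  set c : ℝ := (δ ⬝ᵥ δ)⁻¹ with hc
  have hc0 : 0 < c := inv_pos.2 hδ0
  have hcδ : c * (δ ⬝ᵥ δ) = 1 := inv_mul_cancel₀ hδ0.ne'
  have basic : ∀ ψ : Aff d, ∃ h ∈ KH (wt1 ψ), h i = φ i (FreeGroup.of (ev (a i) ψ)) *
      (φ i (FreeGroup.of (ev (a j) ψ)))⁻¹ ∧ h j = 1 := by
    intro ψ
    refine ⟨_, by simpa using hmul _ _ _ _ (hcol ψ) (hdg (FreeGroup.of (ev (a j) ψ))⁻¹), ?_, ?_⟩
    · simp
    · simp
  have triv : ∀ (t : Fin d → ℝ) (r : ℝ), t = r • δ → ∀ s : Finset (Fin d × Fin d),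
      ∃ h ∈ KH (∑ p ∈ s, vecMulVec (perp t p) (perp t p)), h i = 1 ∧ h j = 1 := by
    intro t r ht s
    induction s using Finset.induction_on with
    | empty => exact ⟨_, by simpa using hdg 1, by simp, by simp⟩
    | insert p s hp ih =>
      obtain ⟨h, h1, h2, h3⟩ := ih
      obtain ⟨g, g1, g2, g3⟩ := basic (0, perp t p)
      have e : ev (a i) (0, perp t p) = ev (a j) (0, perp t p) := by
        have e1 : perp t p = r • perp δ p := by
          rw [ht]; ext q; simp [perp, Pi.single_apply]; split_ifs <;> ring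
        have e2 := perp_dot δ p
        rw [hδ, dotProduct_sub] at e2
        simp only [ev_apply, e1, smul_dotProduct, hδ]
        rw [sub_eq_zero.1 e2]
      rw [Finset.sum_insert hp]
      exact ⟨g * h, hmul _ _ _ _ g1 h1, by simp [g2, h2, e], by simp [g3, h3]⟩
  let Path : ℝ → ℝ → ℝ → Prop := fun p q s => ∃ h ∈ KH (s • (1 : Matrix (Fin d) (Fin d) ℝ)),
    h i = φ i (FreeGroup.of q) * (φ i (FreeGroup.of p))⁻¹ ∧ h j = 1
  have step : ∀ p q, Path p q ((q - p) ^ 2 * c) := by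
    intro p q
    set t : Fin d → ℝ := ((q - p) * c) • δ with ht
    obtain ⟨g, g1, g2, g3⟩ := basic (p - t ⬝ᵥ a j, t)
    obtain ⟨h, h1, h2, h3⟩ := triv t _ ht Finset.univ
    have e1 : ev (a j) (p - t ⬝ᵥ a j, t) = p := by simp [ev_apply]
    have e2 : ev (a i) (p - t ⬝ᵥ a j, t) = q := by
      have : t ⬝ᵥ a i - t ⬝ᵥ a j = q - p := by
        rw [← dotProduct_sub, ← hδ, ht, smul_dotProduct, smul_eq_mul, mul_assoc, hcδ, mul_one]
      simp only [ev_apply]; linarith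
    have e3 : t ⬝ᵥ t = (q - p) ^ 2 * c := by
      rw [ht, smul_dotProduct, dotProduct_smul, smul_eq_mul, smul_eq_mul]
      linear_combination ((q - p) ^ 2 * c) * hcδ
    refine ⟨g * h, ?_, by simp [g2, h2, e1, e2], by simp [g3, h3]⟩
    have := hmul _ _ _ _ g1 h1
    rw [sum_perp, e3] at this
    simpa [wt1] using this
  have comp : ∀ p q r s s', Path p q s → Path q r s' → Path p r (s + s') := by
    rintro p q r s s' ⟨g, g1, g2, g3⟩ ⟨h, h1, h2, h3⟩
    refine ⟨h * g, ?_, by simp [g2, h2], by simp [g3, h3]⟩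
    rw [add_comm, add_smul]; exact hmul _ _ _ _ h1 g1
  have iter : ∀ (u : ℝ) (m : ℕ), Path 0 (m * u) (m * (u ^ 2 * c)) := by
    intro u m
    induction m with
    | zero => simpa using step 0 0
    | succ m ih =>
      have := comp _ _ _ _ _ ih (step (m * u) ((m + 1 : ℕ) * u))
      convert this using 1
      push_cast; ring
  obtain ⟨m, hm⟩ := exists_nat_gt (x ^ 2 * c / ξ)
  have hm0 : (0 : ℝ) < m := lt_of_le_of_lt (by positivity) hm
  have h1 := iter (x / m) m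
  have e1 : (m : ℝ) * (x / m) = x := by field_simp
  have e2 : (m : ℝ) * ((x / m) ^ 2 * c) = x ^ 2 * c / m := by field_simp
  rw [e1, e2] at h1
  have h2 : 0 ≤ ξ - x ^ 2 * c / m := by
    rw [div_lt_iff₀ hξ] at hm
    rw [sub_nonneg, div_le_iff₀ hm0]; linarith
  set r := Real.sqrt ((ξ - x ^ 2 * c / m) / (2 * c)) with hr
  have hr2 : r ^ 2 = (ξ - x ^ 2 * c / m) / (2 * c) := Real.sq_sqrt (by positivity)
  have h3 := comp _ _ _ _ _ (comp _ _ _ _ _ h1 (step x (x + r))) (step (x + r) x)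
  have e3 : x ^ 2 * c / m + (x + r - x) ^ 2 * c + (x - (x + r)) ^ 2 * c = ξ := by
    have : (x + r - x) ^ 2 * c + (x - (x + r)) ^ 2 * c = r ^ 2 * (2 * c) := by ring
    rw [add_assoc, this, hr2]; field_simp; ring
  rw [e3] at h3
  obtain ⟨h, g1, g2, g3⟩ := h3
  exact ⟨h, g1, by simpa [hφ0] using g2, g3⟩

/-- Minimal idempotents in compact right topological semigroups. -/
theorem exists_min_idem {M : Type*} [Semigroup M] [TopologicalSpace M] [T2Space M]
    [CompactSpace M] (hc : ∀ r : M, Continuous (· * r)) (G : Set M) (hG : IsClosed G)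
    (hne : G.Nonempty) (hmul : ∀ x ∈ G, ∀ y ∈ G, x * y ∈ G) :
    ∃ f ∈ G, f * f = f ∧ ∀ x ∈ G, ∃ x' ∈ G, x' * (x * f) = f := by
  let S : Set (Set M) := {L | L ⊆ G ∧ IsClosed L ∧ L.Nonempty ∧ ∀ x ∈ G, ∀ y ∈ L, x * y ∈ L}
  obtain ⟨L, -, hL⟩ := zorn_superset_nonempty S (by
    intro c hcS hch hcne
    refine ⟨⋂₀ c, ⟨?_, isClosed_sInter fun t ht => (hcS ht).2.1, ?_, ?_⟩,
      fun s hs => Set.sInter_subset_of_mem hs⟩
    · obtain ⟨t, ht⟩ := hcne
      exact (Set.sInter_subset_of_mem ht).trans (hcS ht).1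
    · have : Nonempty c := hcne.to_subtype
      exact IsCompact.nonempty_sInter_of_directed_nonempty_isCompact_isClosed
        (IsChain.directedOn hch.symm) (fun t ht => (hcS ht).2.2.1)
        (fun t ht => (hcS ht).2.1.isCompact) (fun t ht => (hcS ht).2.1)
    · intro x hx y hy t ht
      exact (hcS ht).2.2.2 x hx y (hy t ht)) G ⟨subset_rfl, hG, hne, hmul⟩
  obtain ⟨hLG, hLc, hLne, hLm⟩ := hL.prop
  obtain ⟨f, hf, hff⟩ := exists_idempotent_in_compact_subsemigroup hc L hLne hLc.isCompact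
    (fun x hx y hy => hLm x (hLG hx) y hy)
  refine ⟨f, hLG hf, hff, fun x hx => ?_⟩
  have hsub : (· * (x * f)) '' G ⊆ L := by
    rintro _ ⟨y, hy, rfl⟩
    exact hLm y hy _ (hLm x hx f hf)
  have : (· * (x * f)) '' G = L := by
    apply hL.eq_of_subset _ hsub
    refine ⟨hsub.trans hLG, (hc _).isClosedMap _ hG, hne.image _, ?_⟩
    rintro y hy _ ⟨z, hz, rfl⟩
    exact ⟨y * z, hmul y hy z hz, mul_assoc _ _ _⟩
  rw [← this] at hf
  obtain ⟨y, hy, hyf⟩ := hf
  exact ⟨y, hy, hyf⟩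

/-- The maximal subgroup at an idempotent. -/
def CU {M : Type*} [Semigroup M] (f : M) : Type _ :=
  {x : M // f * x = x ∧ x * f = x ∧ ∃ y, f * y = y ∧ y * f = y ∧ x * y = f ∧ y * x = f}

section CU

variable {M : Type*} [Semigroup M] {f : M}

instance : Mul (CU f) := ⟨fun x y => ⟨x.1 * y.1, by
  obtain ⟨x, h1, h2, x', h3, h4, h5, h6⟩ := x
  obtain ⟨y, g1, g2, y', g3, g4, g5, g6⟩ := y
  dsimp only
  refine ⟨by rw [← mul_assoc, h1], by rw [mul_assoc, g2], y' * x', by rw [← mul_assoc, g3],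
    by rw [mul_assoc, h4], ?_, ?_⟩
  · rw [mul_assoc, ← mul_assoc y, g5, h3, h5]
  · rw [mul_assoc, ← mul_assoc x', h6, g1, g6]⟩⟩

noncomputable instance : Inv (CU f) := ⟨fun x => ⟨x.2.2.2.choose, by
  obtain ⟨h3, h4, h5, h6⟩ := x.2.2.2.choose_spec
  exact ⟨h3, h4, x.1, x.2.1, x.2.2.1, h6, h5⟩⟩⟩

instance [hf : Fact (f * f = f)] : One (CU f) :=
  ⟨⟨f, hf.out, hf.out, f, hf.out, hf.out, hf.out, hf.out⟩⟩

noncomputable instance [Fact (f * f = f)] : Group (CU f) :=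
  Group.ofLeftAxioms (fun x y z => Subtype.ext (mul_assoc x.1 y.1 z.1))
    (fun x => Subtype.ext x.2.1) (fun x => Subtype.ext x.2.2.2.choose_spec.2.2.2)

lemma CU.val_mul [Fact (f * f = f)] (x y : CU f) : (x * y).1 = x.1 * y.1 := rfl
lemma CU.val_one [Fact (f * f = f)] : (1 : CU f).1 = f := rfl

end CU

end Vale.Agent.P058
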