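import Mathlib

namespace Vale.Agent.P058

open scoped TensorProduct

/-- `A` is Ramsey: for every number `r ≥ 2` of colours there is a dimension `D ≥ 1` such that
every `r`-colouring of `ℝ^D` is constant on a congruent copy of `A`. -/
def IsRamsey {d : ℕ} (A : Set (EuclideanSpace ℝ (Fin d))) : Prop :=
  ∀ r : ℕ, 2 ≤ r → ∃ D : ℕ, 1 ≤ D ∧ ∀ c : EuclideanSpace ℝ (Fin D) → Fin r,
    ∃ f : A → EuclideanSpace ℝ (Fin D),
      (∀ x y : A, dist (f x) (f y) = dist x.1 y.1) ∧ ∃ k : Fin r, ∀ x : A, c (f x) = k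

/-- The isometries of the ambient space mapping `X` onto itself act transitively on `X`. -/
def IsTransitive {n : ℕ} (X : Set (EuclideanSpace ℝ (Fin n))) : Prop :=
  ∀ x ∈ X, ∀ y ∈ X, ∃ g : EuclideanSpace ℝ (Fin n) ≃ᵢ EuclideanSpace ℝ (Fin n),
    g '' X = X ∧ g x = y

/-- `A` is congruent to a subset of a finite transitive set. -/
def IsSubtransitive {d : ℕ} (A : Set (EuclideanSpace ℝ (Fin d))) : Prop :=
  ∃ (n : ℕ) (X : Set (EuclideanSpace ℝ (Fin n))), X.Finite ∧ IsTransitive X ∧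
    ∃ f : A → EuclideanSpace ℝ (Fin n),
      (∀ x y : A, dist (f x) (f y) = dist x.1 y.1) ∧ ∀ x : A, f x ∈ X

/-- The tensor condition over a subfield `F` of the reals: there is a `(d+1) × (d+1)` matrix `P`
over `F ⊗[ℚ] F` with `(p ⊗ 1)ᵀ P (1 ⊗ p) = 0` for the homogeneous coordinate vector
`p = (1, x₁, …, x_d)` of every point `x` of `A` with coordinates in `F`, and whose spatial block is
sent to the identity matrix by the multiplication map `F ⊗[ℚ] F → F`. -/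
def TensorCondition {d : ℕ} (A : Set (EuclideanSpace ℝ (Fin d))) (F : Subfield ℝ) :
    Prop :=
  ∃ P : Matrix (Option (Fin d)) (Option (Fin d)) (F ⊗[ℚ] F),
    (∀ x : Fin d → F, WithLp.toLp 2 (fun j => (x j : ℝ)) ∈ A →
      ∑ j : Option (Fin d), ∑ l : Option (Fin d),
        ((j.elim 1 x : F) ⊗ₜ[ℚ] (1 : F)) * P j l * ((1 : F) ⊗ₜ[ℚ] (l.elim 1 x : F)) = 0) ∧
    ∀ j l : Fin d,
      Algebra.TensorProduct.lmul' ℚ (P (some j) (some l)) = if j = l then (1 : F) else 0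

/-- `A` lies on a sphere. -/
def IsSpherical {d : ℕ} (A : Set (EuclideanSpace ℝ (Fin d))) : Prop :=
  ∃ (z : EuclideanSpace ℝ (Fin d)) (ρ : ℝ), ∀ x ∈ A, ‖x - z‖ = ρ

/-- The four points `(-1, 0)`, `(1, 0)`, `(a, √(1 - a²))`, `(a, -√(1 - a²))` of the plane. -/
def kite (a : ℝ) : Set (EuclideanSpace ℝ (Fin 2)) :=
  {WithLp.toLp 2 ![-1, 0], WithLp.toLp 2 ![1, 0],
    WithLp.toLp 2 ![a, √(1 - a ^ 2)], WithLp.toLp 2 ![a, -√(1 - a ^ 2)]}

end Vale.Agent.P058
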