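import Vale.Agent.P058.Real

namespace Vale.Agent.P058

open Matrix
open scoped TensorProduct

variable {d : ℕ}

lemma exists_theta (F : Subfield ℝ) :
    ∃ (Θ : BB →ₗ[ℚ] F ⊗[ℚ] F) (ρ : ℝ →ₗ[F] F), ρ 1 = 1 ∧
      (∀ (u v : F) (w : BB), Θ (((u : ℝ) ⊗ₜ[ℚ] (v : ℝ)) * w) = (u ⊗ₜ[ℚ] v) * Θ w) ∧
      ∀ w, Algebra.TensorProduct.lmul' ℚ (Θ w) = ρ (mm w) := by
  classical
  obtain ⟨ρ, hρ⟩ := Module.Projective.exists_dual_eq_one F (one_ne_zero : (1 : ℝ) ≠ 0)
  let b := Module.Basis.ofVectorSpace F ℝ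
  let g : ℝ → ℝ → F ⊗[ℚ] F := fun x y => (b.repr y).sum fun β c => ρ (x * b β) ⊗ₜ[ℚ] c
  have g1 : ∀ x x' y, g (x + x') y = g x y + g x' y := by
    intro x x' y
    simp [g, add_mul, TensorProduct.add_tmul, Finsupp.sum_add]
  have g2 : ∀ x y y', g x (y + y') = g x y + g x y' := by
    intro x y y'
    simp only [g, map_add]
    exact Finsupp.sum_add_index' (by simp) (fun _ _ _ => TensorProduct.tmul_add _ _ _)
  have g3 : ∀ (u v : F) x y, g (u * x) (v * y) = (u ⊗ₜ[ℚ] v) * g x y := by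
    intro u v x y
    have e1 : (v : ℝ) * y = v • y := rfl
    have e2 : ∀ z : ℝ, ρ (u * x * z) = u * ρ (x * z) := by
      intro z
      rw [mul_assoc]
      exact map_smul ρ u (x * z)
    simp only [g, e1, map_smul, e2]
    rw [Finsupp.sum_smul_index' (by simp), Finsupp.mul_sum]
    simp
  have g4 : ∀ (q : ℚ) x y, g (q • x) y = q • g x y := by
    intro q x y
    have := g3 (algebraMap ℚ F q) 1 x y
    rw [← Algebra.TensorProduct.algebraMap_apply, ← Algebra.smul_def] at this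
    simpa [Rat.smul_def] using this
  have g5 : ∀ (q : ℚ) x y, g x (q • y) = q • g x y := by
    intro q x y
    have := g3 1 (algebraMap ℚ F q) x y
    rw [← Algebra.TensorProduct.algebraMap_apply', ← Algebra.smul_def] at this
    simpa [Rat.smul_def] using this
  let Θ : BB →ₗ[ℚ] F ⊗[ℚ] F := TensorProduct.lift (LinearMap.mk₂ ℚ g g1 g4 g2 g5)
  have hΘ : ∀ x y, Θ (x ⊗ₜ y) = g x y := fun x y => by simp [Θ]
  refine ⟨Θ, ρ, hρ, fun u v w => ?_, fun w => ?_⟩
  · induction w using TensorProduct.induction_on with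
    | zero => simp
    | tmul x y => rw [Algebra.TensorProduct.tmul_mul_tmul, hΘ, hΘ, g3]
    | add x y hx hy => rw [mul_add, map_add, map_add, mul_add, hx, hy]
  · induction w using TensorProduct.induction_on with
    | zero => simp
    | tmul x y =>
      rw [hΘ]
      simp only [g, map_finsuppSum, Algebra.TensorProduct.lmul'_apply_tmul]
      conv_rhs => rw [← b.linearCombination_repr y]
      rw [Finsupp.linearCombination_apply, Finsupp.mul_sum, map_finsuppSum]
      refine Finsupp.sum_congr fun β _ => ?_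
      rw [mul_smul_comm, map_smul, smul_eq_mul, mul_comm]
    | add x y hx hy => simp only [map_add, hx, hy]

theorem tensorCondition_iff (A : Set (EuclideanSpace ℝ (Fin d))) (F : Subfield ℝ)
    (hF : ∀ x ∈ A, ∀ j, x j ∈ F) : TensorCondition A F ↔ TM fun x : A => x.1.ofLp := by
  have hel : ∀ (x : Fin d → F) (j : Option (Fin d)),
      ((j.elim 1 x : F) : ℝ) = j.elim 1 (fun k => (x k : ℝ)) := by
    intro x j; cases j <;> rfl
  constructor
  · rintro ⟨P, h1, h2⟩
    let ι : F ⊗[ℚ] F →ₐ[ℚ] BB := Algebra.TensorProduct.map F.subtype.toRatAlgHom F.subtype.toRatAlgHom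
    have hιt : ∀ x y : F, ι (x ⊗ₜ y) = (x : ℝ) ⊗ₜ (y : ℝ) := fun x y => rfl
    have hι : ∀ w, mm (ι w) = (Algebra.TensorProduct.lmul' ℚ w : F) := by
      intro w
      induction w using TensorProduct.induction_on with
      | zero => simp
      | tmul x y => rw [hιt]; simp
      | add x y hx hy => simp only [map_add, hx, hy]; rfl
    refine ⟨P.map ι, fun x => ?_, ?_⟩
    · have := congrArg ι (h1 (fun j => ⟨x.1 j, hF x.1 x.2 j⟩) x.2)
      rw [map_zero] at this
      rw [← this, EvM_apply]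
      simp only [map_sum, map_mul]
      refine Finset.sum_congr rfl fun j _ => Finset.sum_congr rfl fun l _ => ?_
      rw [mul_right_comm, hιt, hιt]
      simp [hel]
    · ext j l
      rw [muM_apply, Matrix.map_apply, hι, h2, Matrix.one_apply]
      split_ifs <;> simp
  · rintro ⟨P, h1, h2⟩
    obtain ⟨Θ, ρ, hρ, hΘ, hm⟩ := exists_theta F
    refine ⟨P.map Θ, fun x hx => ?_, fun j l => ?_⟩
    · have := congrArg Θ (h1 ⟨_, hx⟩)
      rw [map_zero] at this
      rw [← this, EvM_apply]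
      simp only [map_sum, ← hel, hΘ]
      refine Finset.sum_congr rfl fun j _ => Finset.sum_congr rfl fun l _ => ?_
      rw [Matrix.map_apply, mul_right_comm]
      simp
    · rw [Matrix.map_apply, hm, ← muM_apply, h2, Matrix.one_apply]
      split_ifs <;> simp [hρ]

theorem ramsey_iff (A : Set (EuclideanSpace ℝ (Fin d))) (hA : A.Finite)
    (F : Subfield ℝ) (hF : ∀ x ∈ A, ∀ j, x j ∈ F) :
    IsRamsey A ↔ TensorCondition A F :=
  ⟨fun h => (tensorCondition_iff A F hF).2 (TM_of_ramsey A hA h),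
    fun h => ramsey_of_TM A hA ((tensorCondition_iff A F hF).1 h)⟩

lemma exists_perm_group {n : ℕ} (X : Set (EuclideanSpace ℝ (Fin n))) (hX : IsTransitive X) :
    ∃ H : Subgroup (Equiv.Perm X), (∀ σ ∈ H, ∀ x y : X, dist (σ x).1 (σ y).1 = dist x.1 y.1) ∧
      ∀ x y : X, ∃ σ ∈ H, σ x = y := by
  let H : Subgroup (Equiv.Perm X) :=
    { carrier := {σ | ∀ x y : X, dist (σ x).1 (σ y).1 = dist x.1 y.1}
      one_mem' := fun x y => rfl
      mul_mem' := fun {σ τ} hσ hτ x y => (hσ (τ x) (τ y)).trans (hτ x y)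
      inv_mem' := fun {σ} hσ x y => by
        have := hσ (σ⁻¹ x) (σ⁻¹ y)
        simpa using this.symm }
  refine ⟨H, fun σ hσ => hσ, fun x y => ?_⟩
  obtain ⟨g, hg, hxy⟩ := hX x.1 x.2 y.1 y.2
  have hmem : ∀ z, z ∈ X ↔ g.toEquiv z ∈ X := by
    intro z
    constructor
    · intro hz; rw [← hg]; exact ⟨z, hz, rfl⟩
    · intro hz
      rw [← hg] at hz
      obtain ⟨w, hw, e⟩ := hz
      rwa [← g.injective e]
  refine ⟨g.toEquiv.subtypeEquiv hmem, fun u v => ?_, Subtype.ext hxy⟩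
  exact g.dist_eq u.1 v.1

theorem TM_of_subtransitive (A : Set (EuclideanSpace ℝ (Fin d))) (hA : A.Finite)
    (h : IsSubtransitive A) : TM fun x : A => x.1.ofLp := by
  classical
  have := hA.fintype
  obtain ⟨n, X, hX, ht, f, hf, hfX⟩ := h
  have := hX.fintype
  obtain ⟨H, hH, htr⟩ := exists_perm_group X ht
  have : Fintype H := Fintype.ofFinite H
  choose P hP1 hP2 using fun σ : H => iso_P (fun x : A => x.1) (fun x => (σ.1 ⟨f x, hfX x⟩).1)
    (fun x y => (hH σ.1 σ.2 _ _).trans (hf x y))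
  have hC : ∃ C : BB, ∀ x : X, ∑ σ : H, QQ (σ.1 x).1 = C := by
    rcases isEmpty_or_nonempty X with hX0 | ⟨⟨x0⟩⟩
    · exact ⟨0, fun x => hX0.elim x⟩
    refine ⟨∑ σ : H, QQ (σ.1 x0).1, fun x => ?_⟩
    obtain ⟨τ, hτ, rfl⟩ := htr x0 x
    exact Fintype.sum_equiv (Equiv.mulRight (⟨τ, hτ⟩ : H)) _ _ fun σ => rfl
  obtain ⟨C, hC⟩ := hC
  have hc : (Fintype.card H : ℚ) ≠ 0 := by exact_mod_cast Fintype.card_ne_zero
  refine ⟨(Fintype.card H : ℚ)⁻¹ • (∑ σ, P σ - C • Pm (cst 1) (cst 1)), fun x => ?_, ?_⟩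
  · rw [LinearMap.map_smul_of_tower, map_sub, map_sum, EvM_const]
    simp [hP1, hC]
  · rw [map_smul, map_sub, map_sum, muM_const]
    simp [hP2, ← Nat.cast_smul_eq_nsmul ℚ, smul_smul, hc]

theorem ramsey_of_subtransitive (A : Set (EuclideanSpace ℝ (Fin d))) (hA : A.Finite)
    (h : IsSubtransitive A) : IsRamsey A :=
  ramsey_of_TM A hA (TM_of_subtransitive A hA h)

end Vale.Agent.P058
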