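import Mathlib

namespace Vale.Agent.P058

/-- The integral group ring of an additive commutative group. -/
abbrev GR (V : Type*) [AddCommGroup V] := FreeAbelianGroup (Multiplicative V)

section

variable {V W : Type*} [AddCommGroup V] [AddCommGroup W]

/-- The basis element of the group ring attached to a group element. -/
def br (v : V) : GR V := FreeAbelianGroup.of (Multiplicative.ofAdd v)

lemma br_add (u v : V) : br (u + v) = br u * br v := by
  simp [br, FreeAbelianGroup.of_mul_of, ofAdd_add]

@[simp] lemma br_zero : br (0 : V) = 1 := rfl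

/-- Additive maps out of the group ring. -/
def lft {M : Type*} [AddCommGroup M] (f : V → M) : GR V →+ M :=
  FreeAbelianGroup.lift (fun x => f x.toAdd)

@[simp] lemma lft_br {M : Type*} [AddCommGroup M] (f : V → M) (v : V) : lft f (br v) = f v := by
  simp [lft, br]

@[elab_as_elim]
lemma GR_ind {C : GR V → Prop} (z : GR V) (h0 : C 0) (h1 : ∀ v, C (br v))
    (h2 : ∀ x, C x → C (-x)) (h3 : ∀ x y, C x → C y → C (x + y)) : C z := by
  induction z using FreeAbelianGroup.induction_on with
  | zero => exact h0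
  | of x => exact h1 x.toAdd
  | neg x hx => exact h2 _ hx
  | add x y hx hy => exact h3 x y hx hy

lemma GR_ext {M : Type*} [AddCommGroup M] {f g : GR V →+ M} (h : ∀ v, f (br v) = g (br v)) :
    f = g := FreeAbelianGroup.lift_ext _ _ fun x => h x.toAdd

/-- Functoriality of the group ring. -/
def mapR (f : V →+ W) : GR V →+* GR W :=
  FreeAbelianGroup.liftMonoid
    { toFun := fun x => br (f x.toAdd)
      map_one' := by simp
      map_mul' := fun x y => by simp [br_add] }

@[simp] lemma mapR_br (f : V →+ W) (v : V) : mapR f (br v) = br (f v) := by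
  simp [mapR, br, FreeAbelianGroup.liftMonoid_coe]

lemma mapR_surjective {f : V →+ W} (hf : Function.Surjective f) :
    Function.Surjective (mapR f) := by
  intro y
  induction y using GR_ind with
  | h0 => exact ⟨0, map_zero _⟩
  | h1 v => obtain ⟨u, rfl⟩ := hf v; exact ⟨br u, mapR_br _ _⟩
  | h2 x hx => obtain ⟨u, rfl⟩ := hx; exact ⟨-u, map_neg _ _⟩
  | h3 x y hx hy =>
    obtain ⟨u, rfl⟩ := hx; obtain ⟨v, rfl⟩ := hy; exact ⟨u + v, map_add _ _ _⟩

lemma mapR_comm {V' : Type*} [AddCommGroup V'] {W' : Type*} [AddCommGroup W']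
    (f : V →+ W) (g : W →+ W') (f' : V →+ V') (g' : V' →+ W') (h : ∀ v, g (f v) = g' (f' v))
    (x : GR V) : mapR g (mapR f x) = mapR g' (mapR f' x) := by
  induction x using GR_ind with
  | h0 => simp
  | h1 v => simp [h]
  | h2 x hx => simp [hx]
  | h3 x y hx hy => simp [hx, hy]

variable (V) in
/-- The augmentation ideal. -/
def aug : Ideal (GR V) := Ideal.span (Set.range fun v : V => br v - 1)

lemma br_sub_one_mem (v : V) : br v - 1 ∈ aug V := Ideal.subset_span ⟨v, rfl⟩

lemma br_sub_br_mem (u v : V) : br u - br v ∈ aug V := by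
  have := (aug V).sub_mem (br_sub_one_mem u) (br_sub_one_mem v)
  simpa using this

lemma mapR_sub_mem (f : V →+ V) (x : GR V) : mapR f x - x ∈ aug V := by
  induction x using GR_ind with
  | h0 => simp
  | h1 v => simpa using br_sub_br_mem _ _
  | h2 x hx => have := (aug V).neg_mem hx; convert this using 1; simp; ring
  | h3 x y hx hy => have := (aug V).add_mem hx hy; convert this using 1; simp; ring

lemma mapR_mem_aug (f : V →+ W) {x : GR V} (hx : x ∈ aug V) : mapR f x ∈ aug W := by
  have : aug V ≤ (aug W).comap (mapR f) := by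
    refine Ideal.span_le.2 ?_
    rintro _ ⟨v, rfl⟩
    simpa using br_sub_one_mem _
  exact this hx

/-- The scaling endomorphism. -/
def sc (m : ℕ) : GR V →+* GR V := mapR (nsmulAddMonoidHom m)

@[simp] lemma sc_br (m : ℕ) (v : V) : sc m (br v) = br (m • v) := by simp [sc]

lemma br_nsmul_mem (m : ℕ) (v : V) :
    br (m • v) - 1 - (m : GR V) * (br v - 1) ∈ aug V ^ 2 := by
  induction m with
  | zero => simp
  | succ m ih =>
    have h1 : (br (m • v) - 1) * (br v - 1) ∈ aug V ^ 2 := by
      rw [pow_two]; exact Ideal.mul_mem_mul (br_sub_one_mem _) (br_sub_one_mem _)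
    have := (aug V ^ 2).add_mem ih h1
    convert this using 1
    rw [succ_nsmul, br_add]; push_cast; ring

lemma sc_one_mem (m : ℕ) {x : GR V} (hx : x ∈ aug V) :
    sc m x - (m : GR V) * x ∈ aug V ^ 2 := by
  induction hx using Submodule.span_induction with
  | mem x hx =>
    obtain ⟨v, rfl⟩ := hx
    simpa using br_nsmul_mem m v
  | zero => simp
  | add x y _ _ hx hy =>
    have := (aug V ^ 2).add_mem hx hy
    convert this using 1; simp; ring
  | smul r x hx' hx =>
    have h1 : (sc m r - r) * sc m x ∈ aug V ^ 2 := by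
      rw [pow_two]; exact Ideal.mul_mem_mul (mapR_sub_mem _ _) (mapR_mem_aug _ hx')
    have := (aug V ^ 2).add_mem h1 ((aug V ^ 2).mul_mem_left r hx)
    convert this using 1; simp; ring

lemma sc_pow_mem (m k : ℕ) {x : GR V} (hx : x ∈ aug V ^ k) :
    sc m x - (m : GR V) ^ k * x ∈ aug V ^ (k + 1) := by
  induction k generalizing x with
  | zero => simpa [sc] using mapR_sub_mem _ x
  | succ k ih =>
    rw [pow_succ] at hx
    refine Submodule.mul_induction_on hx ?_ ?_
    · intro y hy z hz
      have h1 : (sc m y - (m : GR V) ^ k * y) * sc m z ∈ aug V ^ (k + 1 + 1) := by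
        rw [pow_succ _ (k + 1)]; exact Ideal.mul_mem_mul (ih hy) (mapR_mem_aug _ hz)
      have h2 : y * (sc m z - (m : GR V) * z) ∈ aug V ^ (k + 1 + 1) := by
        rw [show k + 1 + 1 = k + 2 from rfl, pow_add]
        exact Ideal.mul_mem_mul hy (sc_one_mem m hz)
      have := (aug V ^ (k + 1 + 1)).add_mem h1 ((aug V ^ (k + 1 + 1)).mul_mem_left
        ((m : GR V) ^ k) h2)
      convert this using 1; simp; ring
    · intro y z hy hz
      have := (aug V ^ (k + 1 + 1)).add_mem hy hz
      convert this using 1; simp; ring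

lemma sc_mem_pow (m k : ℕ) {x : GR V} (hx : x ∈ aug V ^ k) : sc m x ∈ aug V ^ k := by
  have h1 := Ideal.pow_le_pow_right (Nat.le_succ k) (sc_pow_mem m k hx)
  have := (aug V ^ k).add_mem h1 ((aug V ^ k).mul_mem_left ((m : GR V) ^ k) hx)
  simpa using this

/-- The biadditive map `(x, y) ↦ ([x] - 1) ([y] - 1)` modulo the cube of the augmentation ideal,
seen through any additive map killing that cube. -/
def bil {M : Type*} [AddCommGroup M] (Θ : GR V →+ M) (hΘ : ∀ x ∈ aug V ^ 3, Θ x = 0) :
    V →+ V →+ M :=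
  AddMonoidHom.mk' (fun x => AddMonoidHom.mk' (fun y => Θ ((br x - 1) * (br y - 1))) (by
    intro y y'
    have h : (br x - 1) * (br y - 1) * (br y' - 1) ∈ aug V ^ 3 := by
      rw [pow_three', ]
      exact Ideal.mul_mem_mul (Ideal.mul_mem_mul (br_sub_one_mem _) (br_sub_one_mem _))
        (br_sub_one_mem _)
    have e : (br x - 1) * (br (y + y') - 1) = (br x - 1) * (br y - 1) + (br x - 1) * (br y' - 1)
        + (br x - 1) * (br y - 1) * (br y' - 1) := by rw [br_add]; ring
    rw [e, map_add, map_add, hΘ _ h, add_zero])) (by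
    intro x x'
    ext y
    have h : (br x - 1) * (br x' - 1) * (br y - 1) ∈ aug V ^ 3 := by
      rw [pow_three', ]
      exact Ideal.mul_mem_mul (Ideal.mul_mem_mul (br_sub_one_mem _) (br_sub_one_mem _))
        (br_sub_one_mem _)
    have e : (br (x + x') - 1) * (br y - 1) = (br x - 1) * (br y - 1) + (br x' - 1) * (br y - 1)
        + (br x - 1) * (br x' - 1) * (br y - 1) := by rw [br_add]; ring
    simp only [AddMonoidHom.mk'_apply, AddMonoidHom.add_apply]
    rw [e, map_add, map_add, hΘ _ h, add_zero])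

@[simp] lemma bil_apply {M : Type*} [AddCommGroup M] (Θ : GR V →+ M)
    (hΘ : ∀ x ∈ aug V ^ 3, Θ x = 0) (x y : V) :
    bil Θ hΘ x y = Θ ((br x - 1) * (br y - 1)) := rfl

end

/-- A biadditive map on the reals is balanced over the rationals. -/
lemma bil_rat_balanced {M : Type*} [AddCommGroup M] (β : ℝ →+ ℝ →+ M) (q : ℚ) (x y : ℝ) :
    β (q • x) y = β x (q • y) := by
  have hd : (q.den : ℝ) ≠ 0 := by exact_mod_cast q.den_nz
  have hq : (q : ℝ) = q.num / q.den := by exact_mod_cast (Rat.num_div_den q).symm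
  have e1 : y = q.den • (y / q.den) := by rw [nsmul_eq_mul]; field_simp
  have e2 : q.den • (q • x) = q.num • x := by
    rw [nsmul_eq_mul, zsmul_eq_mul, Rat.smul_def, hq]; field_simp
  have e3 : q.num • (y / q.den) = q • y := by
    rw [zsmul_eq_mul, Rat.smul_def, hq]; field_simp
  calc β (q • x) y = β (q • x) (q.den • (y / q.den)) := by rw [← e1]
    _ = β (q.den • (q • x)) (y / q.den) := by rw [map_nsmul, map_nsmul]; rfl
    _ = β (q.num • x) (y / q.den) := by rw [e2]
    _ = β x (q.num • (y / q.den)) := by rw [map_zsmul, map_zsmul]; rfl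
    _ = _ := by rw [e3]

open TensorProduct in
/-- A vanishing sum of rational tensors gives an element of the cube of the augmentation ideal. -/
lemma mem_cube_of_tensor (L : List (ℝ × ℝ))
    (h : (L.map fun p => p.1 ⊗ₜ[ℚ] p.2).sum = 0) :
    (L.map fun p => (br p.1 - 1) * (br p.2 - 1)).sum ∈ aug ℝ ^ 3 := by
  let Θ : GR ℝ →+ (GR ℝ ⧸ aug ℝ ^ 3) := (Ideal.Quotient.mk (aug ℝ ^ 3)).toAddMonoidHom
  have hΘ : ∀ x ∈ aug ℝ ^ 3, Θ x = 0 := fun x hx => Ideal.Quotient.eq_zero_iff_mem.2 hx
  let T : ℝ ⊗[ℚ] ℝ →+ (GR ℝ ⧸ aug ℝ ^ 3) :=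
    TensorProduct.liftAddHom (bil Θ hΘ) (fun q x y => bil_rat_balanced _ q x y)
  have h1 := congrArg T h
  rw [map_zero, map_list_sum, List.map_map] at h1
  rw [← Ideal.Quotient.eq_zero_iff_mem]
  change Θ _ = 0
  rw [map_list_sum, List.map_map, ← h1]
  congr 1

end Vale.Agent.P058
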