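import Vale.Agent.P058.Field

namespace Vale.Agent.P058

open Matrix
open scoped TensorProduct

variable {d : ℕ}

lemma mm_QQ {D : ℕ} (x : EuclideanSpace ℝ (Fin D)) : mm (QQ x) = ‖x‖ ^ 2 := by
  rw [EuclideanSpace.real_norm_sq_eq]
  simp [QQ, sq]

theorem TM_of_cover (A : Set (EuclideanSpace ℝ (Fin d))) (hA : A.Finite) (hs : IsSpherical A)
    (hc : ∀ x ∈ A, ∃ φ ψ : Aff d, ev x.ofLp φ = 1 ∧ ev x.ofLp ψ = 1 ∧
      ∀ y ∈ A, y ≠ x → ev y.ofLp φ = 0 ∨ ev y.ofLp ψ = 0) :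
    TM fun x : A => x.1.ofLp := by
  classical
  have := hA.fintype
  obtain ⟨z, ρ, hz⟩ := hs
  obtain ⟨P, hP1, hP2⟩ := iso_P (fun x : A => x.1) (fun x => x.1 - z)
    (fun x y => dist_sub_right _ _ _)
  choose φ ψ h1 h2 h3 using fun x : A => hc x.1 x.2
  let C : BB := (ρ ^ 2) ⊗ₜ 1
  refine ⟨P - C • Pm (cst 1) (cst 1) - ∑ x : A, (QQ (x.1 - z) - C) • Pm (φ x) (ψ x),
    fun y => ?_, ?_⟩
  · rw [map_sub, map_sub, EvM_const, hP1, map_sum, Finset.sum_eq_single y]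
    · simp [EvM_Pm, h1, h2, ← Algebra.TensorProduct.one_def]
    · intro x _ hxy
      rcases h3 x y.1 y.2 (fun h => hxy (Subtype.ext h.symm)) with h | h <;> simp [EvM_Pm, h]
    · simp
  · rw [map_sub, map_sub, muM_const, hP2, map_sum, Finset.sum_eq_zero, sub_zero, sub_zero]
    intro x _
    rw [muM_smul, map_sub, mm_QQ, hz x.1 x.2]
    simp [C]

lemma exists_aff_two {x p q z : EuclideanSpace ℝ (Fin d)} {ρ : ℝ} (hx : ‖x - z‖ = ρ)
    (hp : ‖p - z‖ = ρ) (hq : ‖q - z‖ = ρ) (hxp : p ≠ x) (hxq : q ≠ x) (hpq : p ≠ q) :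
    ∃ φ : Aff d, ev x.ofLp φ = 1 ∧ ev p.ofLp φ = 0 ∧ ev q.ofLp φ = 0 := by
  set u : Fin d → ℝ := x.ofLp - p.ofLp with hu
  set v : Fin d → ℝ := q.ofLp - p.ofLp with hv
  set w : Fin d → ℝ := p.ofLp - z.ofLp with hw
  have hn : ∀ y : EuclideanSpace ℝ (Fin d), ‖y - z‖ = ρ →
      (y.ofLp - z.ofLp) ⬝ᵥ (y.ofLp - z.ofLp) = ρ ^ 2 := by
    intro y hy
    rw [← hy, EuclideanSpace.real_norm_sq_eq]
    simp [dotProduct, sq]
  have e1 := hn x hx
  have e2 := hn p hp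
  have e3 := hn q hq
  rw [show x.ofLp - z.ofLp = u + w by simp [hu, hw]] at e1
  rw [show q.ofLp - z.ofLp = v + w by simp [hv, hw]] at e3
  rw [← hw] at e2
  simp only [add_dotProduct, dotProduct_add, dotProduct_comm w] at e1 e3
  have hv0 : 0 < v ⬝ᵥ v := dot_self_pos fun h =>
    hpq (WithLp.ofLp_injective 2 (sub_eq_zero.1 h)).symm
  set t : Fin d → ℝ := (v ⬝ᵥ v) • u - (u ⬝ᵥ v) • v with ht
  have htv : t ⬝ᵥ v = 0 := by simp [ht, sub_dotProduct, mul_comm]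
  have htu : t ⬝ᵥ u ≠ 0 := by
    intro h0
    have htt : t ⬝ᵥ t = 0 := by
      have : t ⬝ᵥ t = (v ⬝ᵥ v) * (t ⬝ᵥ u) - (u ⬝ᵥ v) * (t ⬝ᵥ v) := by
        conv_lhs => enter [2]; rw [ht]
        simp only [dotProduct_sub, dotProduct_smul, smul_eq_mul]
      rw [this, htv, h0]; simp
    have ht0 : t = 0 := by
      by_contra h; exact (dot_self_pos h).ne' htt
    obtain ⟨s, hs⟩ : ∃ s : ℝ, u = s • v := by
      refine ⟨(u ⬝ᵥ v) / (v ⬝ᵥ v), ?_⟩
      have := sub_eq_zero.1 (ht.symm.trans ht0)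
      rw [div_eq_inv_mul, mul_smul, ← this, smul_smul, inv_mul_cancel₀ hv0.ne', one_smul]
    rw [hs] at e1
    simp only [smul_dotProduct, dotProduct_smul, smul_eq_mul] at e1
    have : s * (s - 1) * (v ⬝ᵥ v) = 0 := by
      linear_combination e1 - s * e3 + (s - 1) * e2
    rcases mul_eq_zero.1 this with h | h
    · rcases mul_eq_zero.1 h with h | h
      · rw [h, zero_smul] at hs
        exact hxp (WithLp.ofLp_injective 2 (sub_eq_zero.1 hs)).symm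
      · rw [sub_eq_zero.1 h, one_smul, hu, hv, sub_left_inj] at hs
        exact hxq (WithLp.ofLp_injective 2 hs).symm
    · exact hv0.ne' h
  refine ⟨(-((t ⬝ᵥ u)⁻¹ * (t ⬝ᵥ p.ofLp)), (t ⬝ᵥ u)⁻¹ • t), ?_, ?_, ?_⟩
  · have : t ⬝ᵥ x.ofLp = t ⬝ᵥ u + t ⬝ᵥ p.ofLp := by rw [hu, dotProduct_sub]; ring
    simp only [ev_apply, smul_dotProduct, smul_eq_mul, this]
    field_simp; ring
  · simp [ev_apply]
  · have : t ⬝ᵥ q.ofLp = t ⬝ᵥ v + t ⬝ᵥ p.ofLp := by rw [hv, dotProduct_sub]; ring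
    simp [ev_apply, this, htv]

lemma exists_aff_le_two {x z : EuclideanSpace ℝ (Fin d)} {ρ : ℝ} (hx : ‖x - z‖ = ρ)
    (T : Finset (EuclideanSpace ℝ (Fin d))) (hT : T.card ≤ 2) (h1 : ∀ y ∈ T, ‖y - z‖ = ρ)
    (h2 : ∀ y ∈ T, y ≠ x) : ∃ φ : Aff d, ev x.ofLp φ = 1 ∧ ∀ y ∈ T, ev y.ofLp φ = 0 := by
  classical
  obtain h | h | h : T.card = 0 ∨ T.card = 1 ∨ T.card = 2 := by omega
  · rw [Finset.card_eq_zero] at h
    exact ⟨cst 1, by simp, by simp [h]⟩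
  · obtain ⟨p, rfl⟩ := Finset.card_eq_one.1 h
    obtain ⟨φ, a, b⟩ := exists_aff (x := x.ofLp) (y := p.ofLp)
      (fun h => h2 p (by simp) (WithLp.ofLp_injective 2 h).symm) 1 0
    exact ⟨φ, a, by simpa using b⟩
  · obtain ⟨p, q, hpq, rfl⟩ := Finset.card_eq_two.1 h
    obtain ⟨φ, a, b, c⟩ := exists_aff_two hx (h1 p (by simp)) (h1 q (by simp))
      (h2 p (by simp)) (h2 q (by simp)) hpq
    exact ⟨φ, a, by simp [b, c]⟩

theorem ramsey_of_five (A : Set (EuclideanSpace ℝ (Fin d))) (hA : A.Finite) (h5 : A.ncard ≤ 5)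
    (hs : IsSpherical A) : IsRamsey A := by
  classical
  refine ramsey_of_TM A hA (TM_of_cover A hA hs fun x hx => ?_)
  obtain ⟨z, ρ, hz⟩ := hs
  set S := hA.toFinset.erase x with hS
  have hS4 : S.card ≤ 4 := by
    rw [hS, Finset.card_erase_of_mem (by simpa using hx), ← Set.ncard_eq_toFinset_card A hA]
    omega
  have hSm : ∀ y, y ∈ S ↔ y ≠ x ∧ y ∈ A := by simp [hS]
  obtain ⟨T, hTS, hT1, hT2⟩ : ∃ T ⊆ S, T.card ≤ 2 ∧ (S \ T).card ≤ 2 := by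
    by_cases h : S.card ≤ 2
    · exact ⟨S, subset_rfl, h, by simp⟩
    · obtain ⟨T, hT, hc⟩ := Finset.exists_subset_card_eq (s := S) (n := 2) (by omega)
      exact ⟨T, hT, hc.le, by rw [Finset.card_sdiff_of_subset hT]; omega⟩
  obtain ⟨φ, a, b⟩ := exists_aff_le_two (hz x hx) T hT1
    (fun y hy => hz y ((hSm y).1 (hTS hy)).2) (fun y hy => ((hSm y).1 (hTS hy)).1)
  obtain ⟨ψ, a', b'⟩ := exists_aff_le_two (hz x hx) (S \ T) hT2
    (fun y hy => hz y ((hSm y).1 (Finset.sdiff_subset hy)).2)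
    (fun y hy => ((hSm y).1 (Finset.sdiff_subset hy)).1)
  refine ⟨φ, ψ, a, a', fun y hy hyx => ?_⟩
  by_cases h : y ∈ T
  · exact Or.inl (b y h)
  · exact Or.inr (b' y (Finset.mem_sdiff.2 ⟨(hSm y).2 ⟨hyx, hy⟩, h⟩))

lemma kite_finite (a : ℝ) : (kite a).Finite := by
  unfold kite; exact Set.toFinite _

lemma kite_ramsey {a : ℝ} (ha : |a| < 1) : IsRamsey (kite a) := by
  have h0 : 0 ≤ 1 - a ^ 2 := by nlinarith [abs_lt.1 ha]
  refine ramsey_of_five _ (kite_finite a) ?_ ⟨0, 1, ?_⟩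
  · unfold kite
    refine (Set.ncard_insert_le _ _).trans ?_
    refine (Nat.succ_le_succ (Set.ncard_insert_le _ _)).trans ?_
    refine (Nat.succ_le_succ (Nat.succ_le_succ (Set.ncard_insert_le _ _))).trans ?_
    simp
  · intro x hx
    rw [sub_zero, ← sq_eq_sq₀ (norm_nonneg _) zero_le_one, EuclideanSpace.real_norm_sq_eq]
    rcases hx with rfl | rfl | rfl | rfl <;> simp [Fin.sum_univ_two, Real.sq_sqrt h0]

lemma exists_twist {a : ℝ} (ha : Transcendental ℚ a) {x0 : ℝ} (hx0 : x0 ≠ 0) :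
    ∃ θ : ℝ →+ ℝ, θ x0 = 1 ∧ ∀ x, θ (a * x) = (a + 2) * θ x := by
  have ha2 : Transcendental ℚ (a + 2) := by
    intro h
    apply ha
    have h2 : IsAlgebraic ℚ (2 : ℝ) := by exact_mod_cast isAlgebraic_natCast (R := ℚ) (A := ℝ) 2
    simpa using (h.isIntegral.sub h2.isIntegral).isAlgebraic
  let K := FractionRing (Polynomial ℚ)
  let j1 : K →+* ℝ := IsFractionRing.lift
    (g := (Polynomial.aeval a : Polynomial ℚ →ₐ[ℚ] ℝ).toRingHom)
    (by exact transcendental_iff_injective.1 ha)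
  let j2 : K →+* ℝ := IsFractionRing.lift
    (g := (Polynomial.aeval (a + 2) : Polynomial ℚ →ₐ[ℚ] ℝ).toRingHom)
    (by exact transcendental_iff_injective.1 ha2)
  let X : K := algebraMap (Polynomial ℚ) K Polynomial.X
  have e1 : j1 X = a := by simp [j1, X]
  have e2 : j2 X = a + 2 := by simp [j2, X]
  let _ : Algebra K ℝ := j1.toAlgebra
  obtain ⟨ρ, hρ⟩ := Module.Projective.exists_dual_eq_one K hx0
  refine ⟨j2.toAddMonoidHom.comp ρ.toAddMonoidHom, by simp [hρ], fun x => ?_⟩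
  have : a * x = X • x := by rw [← e1]; rfl
  simp [this, e2]

theorem kite_not_subtransitive {a : ℝ} (ha : |a| < 1) (ht : Transcendental ℚ a) :
    ¬ IsSubtransitive (kite a) := by
  classical
  rintro ⟨n, X, hX, htr, f, hf, hfX⟩
  have := (kite_finite a).fintype
  have := hX.fintype
  obtain ⟨H, hH, htr⟩ := exists_perm_group X htr
  have : Fintype H := Fintype.ofFinite H
  let p1 : kite a := ⟨WithLp.toLp 2 ![-1, 0], by simp [kite]⟩
  let p2 : kite a := ⟨WithLp.toLp 2 ![1, 0], by simp [kite]⟩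
  let p3 : kite a := ⟨WithLp.toLp 2 ![a, √(1 - a ^ 2)], by simp [kite]⟩
  let p4 : kite a := ⟨WithLp.toLp 2 ![a, -√(1 - a ^ 2)], by simp [kite]⟩
  let g : H → kite a → EuclideanSpace ℝ (Fin n) := fun σ x => (σ.1 ⟨f x, hfX x⟩).1
  have hrel : ∀ σ k, g σ p3 k + g σ p4 k - g σ p1 k - g σ p2 k = a * (g σ p2 k - g σ p1 k) := by
    intro σ k
    obtain ⟨φ, -, h1, -⟩ := exists_affine_rep (fun x : kite a => x.1) (g σ)
      (fun x y => (hH σ.1 σ.2 _ _).trans (hf x y))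
    simp only [← h1, ev_apply, p1, p2, p3, p4, dotProduct, Fin.sum_univ_two]
    simp; ring
  obtain ⟨k0, hk0⟩ : ∃ k, g 1 p2 k - g 1 p1 k ≠ 0 := by
    by_contra hcon
    push Not at hcon
    have e : f p2 = f p1 := by
      ext k; exact sub_eq_zero.1 (hcon k)
    have := hf p2 p1
    rw [e, dist_self, eq_comm, dist_eq_zero] at this
    have := congrArg (fun v => v.ofLp 0) this
    norm_num [p1, p2] at this
  obtain ⟨θ, hθ1, hθ⟩ := exists_twist ht hk0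
  have hN : ∀ x y : kite a, ∑ σ : H, ∑ k, θ (g σ x k) ^ 2 = ∑ σ : H, ∑ k, θ (g σ y k) ^ 2 := by
    intro x y
    obtain ⟨τ, hτ, e⟩ := htr ⟨f y, hfX y⟩ ⟨f x, hfX x⟩
    refine Fintype.sum_equiv (Equiv.mulRight (⟨τ, hτ⟩ : H)) _ _ fun σ => ?_
    simp only [g, ← e]
    rfl
  have hpos : 0 < a + 1 := by linarith [(abs_lt.1 ha).1]
  have hsum : ∑ σ : H, ∑ k, ((a + 1) * (θ (g σ p2 k) - θ (g σ p1 k)) ^ 2
      + (θ (g σ p3 k) - θ (g σ p2 k)) ^ 2 + (θ (g σ p4 k) - θ (g σ p2 k)) ^ 2) = 0 := by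
    have e : ∀ σ k, ((a + 1) * (θ (g σ p2 k) - θ (g σ p1 k)) ^ 2
        + (θ (g σ p3 k) - θ (g σ p2 k)) ^ 2 + (θ (g σ p4 k) - θ (g σ p2 k)) ^ 2)
        = (a + 1) * θ (g σ p1 k) ^ 2 + θ (g σ p3 k) ^ 2 + θ (g σ p4 k) ^ 2
          - (a + 3) * θ (g σ p2 k) ^ 2 := by
      intro σ k
      have := congrArg θ (hrel σ k)
      rw [hθ] at this
      simp only [map_sub, map_add] at this
      linear_combination (-2 * θ (g σ p2 k)) * this
    simp only [e, Finset.sum_sub_distrib, Finset.sum_add_distrib, ← Finset.mul_sum]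
    rw [hN p1 p2, hN p3 p2, hN p4 p2]
    ring
  rw [Finset.sum_eq_zero_iff_of_nonneg (fun _ _ => by positivity)] at hsum
  have h1 := hsum 1 (Finset.mem_univ _)
  rw [Finset.sum_eq_zero_iff_of_nonneg (fun _ _ => by positivity)] at h1
  have h2 := h1 k0 (Finset.mem_univ _)
  rw [← map_sub, hθ1] at h2
  nlinarith [sq_nonneg (θ (g 1 p3 k0) - θ (g 1 p2 k0)), sq_nonneg (θ (g 1 p4 k0) - θ (g 1 p2 k0))]

lemma exists_transc : ∃ a : ℝ, |a| < 1 ∧ Transcendental ℚ a := by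
  have h := transcendental_liouvilleNumber (m := 2) le_rfl
  refine ⟨Int.fract (liouvilleNumber (2 : ℕ)), ?_, fun h' => h ?_⟩
  · rw [abs_of_nonneg (Int.fract_nonneg _)]; exact Int.fract_lt_one _
  · have h2 : IsAlgebraic ℚ ((⌊liouvilleNumber (2 : ℕ)⌋ : ℤ) : ℝ) := isAlgebraic_intCast _
    have h3 := (h2.isIntegral.add h'.isIntegral).isAlgebraic
    rw [Int.floor_add_fract] at h3
    exact (IsFractionRing.isAlgebraic_iff ℤ ℚ ℝ).2 h3

end Vale.Agent.P058
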