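import Vale.Agent.P058.Abelian

namespace Vale.Agent.P058

open Matrix
open scoped commutatorElement

section Group

variable {G : Type*} [Group G]

/-- The lower central series. -/
abbrev LC (G : Type*) [Group G] (k : ℕ) : Subgroup G := (⊤ : Subgroup G).lowerCentralSeries k

lemma LC_comm {k : ℕ} {z : G} (hz : z ∈ LC G k) (g : G) : ⁅z, g⁆ ∈ LC G (k + 1) :=
  Subgroup.commutator_mem_commutator hz (Subgroup.mem_top g)

lemma LC_central {k : ℕ} {z : G} (hz : z ∈ LC G k) (q : G ⧸ LC G (k + 1)) :
    Commute (QuotientGroup.mk' (LC G (k + 1)) z) q := by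
  obtain ⟨g, rfl⟩ := QuotientGroup.mk'_surjective _ q
  rw [← commutatorElement_eq_one_iff_commute, ← map_commutatorElement]
  exact (QuotientGroup.eq_one_iff _).2 (LC_comm hz g)

lemma psi_LC (ψ : G →* G) (m : ℕ)
    (h : ∀ g, QuotientGroup.mk' (LC G 1) (ψ g) = QuotientGroup.mk' (LC G 1) g ^ m) (j : ℕ) :
    ∀ y ∈ LC G j, QuotientGroup.mk' (LC G (j + 1)) (ψ y)
      = QuotientGroup.mk' (LC G (j + 1)) y ^ (m ^ (j + 1)) := by
  induction j with
  | zero => intro y _; simpa using h y
  | succ j ih =>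
    set Q := QuotientGroup.mk' (LC G (j + 1 + 1)) with hQ
    have hcen : ∀ a ∈ LC G j, ∀ b q, Commute (Q ⁅a, b⁆) q := fun a ha b q =>
      LC_central (LC_comm ha b) q
    have hL : ∀ a ∈ LC G j, ∀ a' ∈ LC G j, ∀ b, Q ⁅a * a', b⁆ = Q ⁅a', b⁆ * Q ⁅a, b⁆ := by
      intro a ha a' ha' b
      have e : ⁅a * a', b⁆ = a * ⁅a', b⁆ * a⁻¹ * ⁅a, b⁆ := by
        simp only [commutatorElement_def]; group
      rw [e, map_mul, map_mul, map_mul, ← (hcen a' ha' b (Q a)).eq, map_inv,
        mul_inv_cancel_right]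
    have hR : ∀ a ∈ LC G j, ∀ b b', Q ⁅a, b * b'⁆ = Q ⁅a, b⁆ * Q ⁅a, b'⁆ := by
      intro a ha b b'
      have e : ⁅a, b * b'⁆ = ⁅a, b⁆ * (b * ⁅a, b'⁆ * b⁻¹) := by
        simp only [commutatorElement_def]; group
      rw [e, map_mul, map_mul, map_mul, ← (hcen a ha b' (Q b)).eq, map_inv,
        mul_inv_cancel_right]
    have hLp : ∀ a ∈ LC G j, ∀ b (n : ℕ), Q ⁅a ^ n, b⁆ = Q ⁅a, b⁆ ^ n := by
      intro a ha b n
      induction n with
      | zero => rw [pow_zero, pow_zero, commutatorElement_one_left, map_one]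
      | succ n ihn => rw [pow_succ', hL a ha _ (Subgroup.pow_mem _ ha n), ihn, pow_succ]
    have hgen : ∀ a ∈ LC G j, ∀ b, Q (ψ ⁅a, b⁆) = Q ⁅a, b⁆ ^ (m ^ (j + 1 + 1)) := by
      intro a ha b
      let f : G →* G ⧸ LC G (j + 1 + 1) := MonoidHom.mk' (fun b => Q ⁅a, b⁆) (hR a ha)
      have hf : ∀ b, f b = Q ⁅a, b⁆ := fun _ => rfl
      have hker : LC G 1 ≤ f.ker := by
        refine Subgroup.commutator_le.2 fun g _ g' _ => ?_
        rw [MonoidHom.mem_ker, map_commutatorElement, commutatorElement_eq_one_iff_commute]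
        exact hcen a ha g _
      have h1 : ψ a * (a ^ (m ^ (j + 1)))⁻¹ ∈ LC G (j + 1) := by
        rw [← QuotientGroup.eq_one_iff]
        change QuotientGroup.mk' _ _ = 1
        rw [map_mul, ih a ha, map_inv, map_pow, mul_inv_cancel]
      have h2 : ψ b * (b ^ m)⁻¹ ∈ LC G 1 := by
        rw [← QuotientGroup.eq_one_iff]
        change QuotientGroup.mk' _ _ = 1
        rw [map_mul, h b, map_inv, map_pow, mul_inv_cancel]
      have h3 : Q ⁅ψ a * (a ^ (m ^ (j + 1)))⁻¹, ψ b⁆ = 1 :=
        (QuotientGroup.eq_one_iff _).2 (LC_comm h1 _)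
      have h4 : f (ψ b) = f b ^ m := by
        have := hker h2
        rw [MonoidHom.mem_ker, map_mul, map_inv, map_pow, mul_inv_eq_one] at this
        exact this
      have e : ψ a = (ψ a * (a ^ (m ^ (j + 1)))⁻¹) * a ^ (m ^ (j + 1)) := by group
      rw [map_commutatorElement, e, hL _ ((⊤ : Subgroup G).lowerCentralSeries_antitone
        (Nat.le_succ j) h1) _ (Subgroup.pow_mem _ ha _), h3, mul_one, hLp a ha, ← hf, h4, hf,
        ← pow_mul, ← pow_succ']
    intro y hy
    rw [Subgroup.mem_lowerCentralSeries_succ_iff] at hy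
    induction hy using Subgroup.closure_induction with
    | mem x hx =>
      obtain ⟨a, ha, b, -, rfl⟩ := hx
      exact hgen a ha b
    | one => rw [map_one, map_one, one_pow]
    | mul x y hx _ ihx ihy =>
      rw [map_mul, map_mul, ihx, ihy, map_mul, (LC_central hx _).mul_pow]
    | inv x _ ihx => rw [map_inv, map_inv, ihx, map_inv, inv_pow]

lemma map_LC {H : Type*} [Group H] (f : G →* H) {k : ℕ} {y : G} (hy : y ∈ LC G k) :
    f y ∈ LC H k := by
  have h1 : (LC G k).map f ≤ LC H k := by
    rw [Subgroup.map_lowerCentralSeries]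
    induction k with
    | zero => simp
    | succ k ih =>
      refine Subgroup.commutator_mono ?_ le_top
      clear ih hy
      induction k with
      | zero => simp
      | succ k ih => exact Subgroup.commutator_mono ih le_top
  exact h1 (Subgroup.mem_map_of_mem f hy)

end Group

variable {d : ℕ} {ι : Type*} [Fintype ι] [DecidableEq ι]

/-- The free group word read off a list of affine functions at a point. -/
def word (x : Fin d → ℝ) (l : List (Aff d)) : FreeGroup ℝ :=
  (l.map fun φ => FreeGroup.of (ev x φ)).prod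

@[simp] lemma word_nil (x : Fin d → ℝ) : word x [] = 1 := rfl
@[simp] lemma word_cons (x : Fin d → ℝ) (φ : Aff d) (l : List (Aff d)) :
    word x (φ :: l) = FreeGroup.of (ev x φ) * word x l := by simp [word]
@[simp] lemma word_append (x : Fin d → ℝ) (l l' : List (Aff d)) :
    word x (l ++ l') = word x l * word x l' := by simp [word]

/-- Raising every letter to the `m`-th power. -/
def psi (m : ℕ) : FreeGroup ℝ →* FreeGroup ℝ := FreeGroup.lift fun x => FreeGroup.of x ^ m

lemma psi_one (m : ℕ) (g : FreeGroup ℝ) :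
    QuotientGroup.mk' (LC (FreeGroup ℝ) 1) (psi m g)
      = QuotientGroup.mk' (LC (FreeGroup ℝ) 1) g ^ m := by
  have hc : ∀ (x : FreeGroup ℝ) q, Commute (QuotientGroup.mk' (LC (FreeGroup ℝ) 1) x) q :=
    fun x q => LC_central (k := 0) (Subgroup.mem_top x) q
  induction g using FreeGroup.induction_on with
  | C1 => rw [map_one, map_one, one_pow]
  | of x => rw [psi, FreeGroup.lift_apply_of, map_pow]
  | inv_of x hx => rw [map_inv, map_inv, hx, map_inv, inv_pow]
  | mul x y hx hy => rw [map_mul, map_mul, hx, hy, map_mul, (hc x _).mul_pow]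

/-- Repeating every letter. -/
def rep (m : ℕ) (l : List (Aff d)) : List (Aff d) := l.flatMap (List.replicate m)

/-- Repeating the whole list. -/
def pw (m : ℕ) (l : List (Aff d)) : List (Aff d) := (List.replicate m l).flatten

lemma word_rep (x : Fin d → ℝ) (m : ℕ) (l : List (Aff d)) :
    word x (rep m l) = psi m (word x l) := by
  induction l with
  | nil => simp [rep]
  | cons φ l ih =>
    simp only [rep, List.flatMap_cons, word_append, word_cons, map_mul] at ih ⊢
    rw [ih]; simp [word, psi]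

lemma wt_rep (m : ℕ) (l : List (Aff d)) : wt (rep m l) = (m : ℝ) • wt l := by
  induction l with
  | nil => simp [rep]
  | cons φ l ih =>
    simp only [rep, List.flatMap_cons, wt_append, wt_cons, smul_add] at ih ⊢
    rw [ih]; simp [wt, Nat.cast_smul_eq_nsmul]

lemma word_pw (x : Fin d → ℝ) (m : ℕ) (l : List (Aff d)) : word x (pw m l) = word x l ^ m := by
  induction m with
  | zero => simp [pw]
  | succ m ih =>
    simp only [pw, List.replicate_succ, List.flatten_cons, word_append] at ih ⊢
    rw [ih, pow_succ']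

lemma wt_pw (m : ℕ) (l : List (Aff d)) : wt (pw m l) = (m : ℝ) • wt l := by
  induction m with
  | zero => simp [pw]
  | succ m ih =>
    simp only [pw, List.replicate_succ, List.flatten_cons, wt_append] at ih ⊢
    rw [ih]; push_cast; rw [add_smul, one_smul, add_comm]

lemma word_ab (x : Fin d → ℝ) {b c : List (Aff d)}
    (h : mapR (ev x) (toR b) = mapR (ev x) (toR c)) :
    (word x c)⁻¹ * word x b ∈ LC (FreeGroup ℝ) 1 := by
  let T : GR ℝ →+ Additive (Abelianization (FreeGroup ℝ)) :=
    lft fun u => Additive.ofMul (Abelianization.of (FreeGroup.of u))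
  have hT : ∀ l, T (mapR (ev x) (toR l)) = Additive.ofMul (Abelianization.of (word x l)) := by
    intro l
    induction l with
    | nil => simp
    | cons φ l ih => simp [T] at ih ⊢; rw [ih]
  have h1 := congrArg T h
  rw [hT, hT] at h1
  have h2 : Abelianization.of (word x b) = Abelianization.of (word x c) := h1
  rw [LC, Subgroup.top_lowerCentralSeries_one, ← Abelianization.ker_of, MonoidHom.mem_ker, map_mul,
    map_inv, h2, inv_mul_cancel]

theorem nilp_relation (a : ι → Fin d → ℝ) (ha : Function.Injective a) (hT : TC a) (j : ℕ) :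
    ∀ η : ℝ, 0 < η → ∃ (b c : List (Aff d)) (D : ℝ), 0 < D ∧
      (∀ i, (word (a i) c)⁻¹ * word (a i) b ∈ LC (FreeGroup ℝ) (j + 1)) ∧
      wt b = wt c + D • (1 : Matrix (Fin d) (Fin d) ℝ) ∧ (wt c).trace ≤ η * D := by
  induction j with
  | zero =>
    intro η hη
    obtain ⟨b, c, D, hD, h1, h2, h3⟩ := abelian_relation a ha hT hη
    exact ⟨b, c, D, hD, fun i => word_ab _ (h1 i), h2, h3⟩
  | succ j ih =>
    intro η hη
    obtain ⟨b, c, D, hD, h1, h2, h3⟩ := ih (η / 6) (by positivity)
    obtain ⟨m, hm⟩ := exists_nat_gt (2 * d / η + 2)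
    have h0 : 0 ≤ 2 * (d : ℝ) / η := by positivity
    have hm2 : (2 : ℝ) ≤ m := by linarith
    have hM : (m : ℝ) ^ 2 ≤ (m : ℝ) ^ (j + 2) := pow_le_pow_right₀ (by linarith) (by omega)
    have hmd : 2 * (d : ℝ) < (m - 1) * η := by
      have : 2 * (d : ℝ) / η < m - 1 := by linarith
      rwa [div_lt_iff₀ hη] at this
    refine ⟨pw (m ^ (j + 2)) b ++ rep m c, pw (m ^ (j + 2)) c ++ rep m b,
      ((m : ℝ) ^ (j + 2) - m) * D, mul_pos (by nlinarith) hD, ?_, ?_, ?_⟩
    · intro i
      rw [← QuotientGroup.eq_one_iff]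
      change QuotientGroup.mk' _ _ = 1
      set Q := QuotientGroup.mk' (LC (FreeGroup ℝ) (j + 1 + 1))
      have hy := psi_LC (psi m) m (psi_one m) (j + 1) _ (h1 i)
      have hc := LC_central (h1 i)
      set y := (word (a i) c)⁻¹ * word (a i) b with hy'
      have e : word (a i) b = word (a i) c * y := by rw [hy']; group
      simp only [word_append, word_pw, word_rep, e, map_mul, map_inv, map_pow]
      rw [hy, (hc _).symm.mul_pow, mul_assoc, ((hc _).pow_left _).eq]
      group
    · simp only [wt_append, wt_pw, wt_rep, h2, smul_add, smul_smul]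
      push_cast
      rw [sub_mul, sub_smul]; abel
    · simp only [wt_append, wt_pw, wt_rep, h2, smul_add, smul_smul, trace_add, trace_smul,
        trace_one, smul_eq_mul, Fintype.card_fin]
      push_cast
      have t0 := trace_wt_nonneg c
      set M := (m : ℝ) ^ (j + 2)
      have a1 : M + m ≤ 3 * (M - m) := by nlinarith
      have a2 : (M + m) * (wt c).trace ≤ 3 * (M - m) * (η / 6 * D) :=
        mul_le_mul a1 h3 t0 (by nlinarith)
      have a3 : m * (m - 1) ≤ M - m := by nlinarith
      have a4 : (m : ℝ) * (2 * d) ≤ m * ((m - 1) * η) :=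
        mul_le_mul_of_nonneg_left hmd.le (by linarith)
      have a5 : m * (m - 1) * η ≤ (M - m) * η := mul_le_mul_of_nonneg_right a3 hη.le
      have a6 : (m : ℝ) * (2 * d) * D ≤ (M - m) * η * D :=
        mul_le_mul_of_nonneg_right (by linarith) hD.le
      nlinarith

/-- A list of weight `s • 1`. -/
noncomputable def padI (d : ℕ) (s : ℝ) : List (Aff d) :=
  List.ofFn fun j : Fin d => ((0 : ℝ), (Pi.single j (Real.sqrt s) : Fin d → ℝ))

lemma wt_padI {s : ℝ} (hs : 0 ≤ s) : wt (padI d s) = s • (1 : Matrix (Fin d) (Fin d) ℝ) := by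
  rw [padI, wt, List.map_ofFn, List.sum_ofFn]
  ext p q
  simp [wt1, vecMulVec_apply, Matrix.sum_apply, Pi.single_apply, Matrix.one_apply,
    Real.mul_self_sqrt hs]

/-- Vectors orthogonal to `t`. -/
noncomputable def perp (t : Fin d → ℝ) (p : Fin d × Fin d) : Fin d → ℝ :=
  (Real.sqrt 2)⁻¹ • (Pi.single p.2 (t p.1) - Pi.single p.1 (t p.2))

lemma perp_dot (t : Fin d → ℝ) (p : Fin d × Fin d) : perp t p ⬝ᵥ t = 0 := by
  simp [perp, sub_dotProduct, mul_comm]

lemma sum_perp (t : Fin d → ℝ) : ∑ p, vecMulVec (perp t p) (perp t p)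
    = (t ⬝ᵥ t) • (1 : Matrix (Fin d) (Fin d) ℝ) - vecMulVec t t := by
  ext r s
  have h2 : (Real.sqrt 2)⁻¹ * (Real.sqrt 2)⁻¹ = 1 / 2 := by
    rw [← mul_inv, Real.mul_self_sqrt (by norm_num)]; norm_num
  have : ∀ p : Fin d × Fin d, vecMulVec (perp t p) (perp t p) r s
      = 1 / 2 * ((if r = p.2 then if s = p.2 then t p.1 * t p.1 else 0 else 0)
        - (if r = p.2 then if s = p.1 then t p.1 * t p.2 else 0 else 0)
        - (if r = p.1 then if s = p.2 then t p.1 * t p.2 else 0 else 0)
        + (if r = p.1 then if s = p.1 then t p.2 * t p.2 else 0 else 0)) := by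
    intro p
    simp only [perp, vecMulVec_apply, Pi.smul_apply, Pi.sub_apply, Pi.single_apply, smul_eq_mul]
    rw [← h2]
    split_ifs <;> ring
  rw [Matrix.sum_apply]
  simp_rw [this]
  rw [← Finset.mul_sum, Finset.sum_add_distrib, Finset.sum_sub_distrib, Finset.sum_sub_distrib]
  simp only [Fintype.sum_prod_type, Finset.sum_ite_eq, Finset.mem_univ, if_true,
    Finset.sum_ite_irrel, Finset.sum_const_zero, Matrix.sub_apply, Matrix.smul_apply,
    vecMulVec_apply, Matrix.one_apply, smul_eq_mul, dotProduct]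
  by_cases h : r = s
  · subst h; simp; ring
  · simp [h, Ne.symm h]; ring

lemma exists_pad (c : List (Aff d)) :
    ∃ p : List (Aff d), wt p + wt c = (wt c).trace • (1 : Matrix (Fin d) (Fin d) ℝ) := by
  induction c with
  | nil => exact ⟨[], by simp⟩
  | cons φ c ih =>
    obtain ⟨p, hp⟩ := ih
    refine ⟨((Finset.univ : Finset (Fin d × Fin d)).toList.map fun q => (0, perp φ.2 q)) ++ p, ?_⟩
    have e : wt ((Finset.univ : Finset (Fin d × Fin d)).toList.map fun q => (0, perp φ.2 q))
        = ∑ q, vecMulVec (perp φ.2 q) (perp φ.2 q) := by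
      rw [wt, List.map_map, Finset.sum_map_toList]; rfl
    rw [wt_append, wt_cons, e, sum_perp, trace_add, trace_wt1, add_smul, ← hp, wt1]; abel

lemma word_scale (x : Fin d → ℝ) (r : ℝ) (l : List (Aff d)) :
    word x (l.map fun φ => r • φ) = FreeGroup.map (fun u => r * u) (word x l) := by
  induction l with
  | nil => simp
  | cons φ l ih => simp [ih, ev_apply, mul_add]

lemma wt_scale (r : ℝ) (l : List (Aff d)) : wt (l.map fun φ => r • φ) = r ^ 2 • wt l := by
  induction l with
  | nil => simp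
  | cons φ l ih =>
    simp only [List.map_cons, wt_cons, ih, smul_add]
    congr 1
    ext p q; simp [wt1, vecMulVec_apply]; ring

theorem exact_relation (a : ι → Fin d → ℝ) (ha : Function.Injective a) (hT : TC a) (j : ℕ)
    {α β : ℝ} (hα : 0 < α) (hβ : α < β) : ∃ b c : List (Aff d),
      (∀ i, (word (a i) c)⁻¹ * word (a i) b ∈ LC (FreeGroup ℝ) j) ∧
      wt b = β • (1 : Matrix (Fin d) (Fin d) ℝ) ∧ wt c = α • (1 : Matrix (Fin d) (Fin d) ℝ) := by
  have hβα : 0 < β - α := by linarith
  obtain ⟨b, c, D, hD, h1, h2, h3⟩ := nilp_relation a ha hT j (α / (β - α)) (by positivity)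
  obtain ⟨p, hp⟩ := exists_pad c
  set r := Real.sqrt ((β - α) / D) with hr
  have hr2 : r ^ 2 = (β - α) / D := Real.sq_sqrt (by positivity)
  have hs : 0 ≤ α - r ^ 2 * (wt c).trace := by
    have := mul_le_mul_of_nonneg_left h3 (sq_nonneg r)
    have e : r ^ 2 * (α / (β - α) * D) = α := by rw [hr2]; field_simp
    linarith
  refine ⟨padI d (α - r ^ 2 * (wt c).trace) ++ (p ++ b).map fun φ => r • φ,
    padI d (α - r ^ 2 * (wt c).trace) ++ (p ++ c).map fun φ => r • φ, ?_, ?_, ?_⟩
  · intro i
    have := map_LC (FreeGroup.map fun u => r * u)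
      ((⊤ : Subgroup (FreeGroup ℝ)).lowerCentralSeries_antitone (Nat.le_succ j) (h1 i))
    convert this using 1
    simp only [word_append, word_scale, map_mul, map_inv]
    group
  · rw [wt_append, wt_scale, wt_padI hs, wt_append, h2, ← add_assoc, hp, smul_add, smul_smul,
      smul_smul, ← add_smul, ← add_smul, hr2]
    congr 1; field_simp; ring
  · rw [wt_append, wt_scale, wt_padI hs, wt_append, hp, smul_smul, ← add_smul]
    congr 1; ring

end Vale.Agent.P058
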