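import Vale.Agent.P058.Ultra
import Vale.Agent.P058.Defs

namespace Vale.Agent.P058

open Matrix
open scoped TensorProduct InnerProductSpace

variable {d : ℕ} {ι : Type*}

/-- The tensor square of the reals over the rationals. -/
abbrev BB := ℝ ⊗[ℚ] ℝ

/-- Square matrices indexed by homogeneous coordinates. -/
abbrev MB (d : ℕ) := Matrix (Option (Fin d)) (Option (Fin d)) BB

/-- Evaluation of a tensor matrix at a point. -/
noncomputable def EvM (x : Fin d → ℝ) : MB d →ₗ[BB] BB where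
  toFun P := ∑ j : Option (Fin d), ∑ l : Option (Fin d),
    ((j.elim 1 x : ℝ) ⊗ₜ[ℚ] (l.elim 1 x : ℝ)) * P j l
  map_add' P Q := by simp [mul_add, Finset.sum_add_distrib]
  map_smul' c P := by
    simp only [Matrix.smul_apply, smul_eq_mul, RingHom.id_apply, Finset.mul_sum]
    exact Finset.sum_congr rfl fun j _ => Finset.sum_congr rfl fun l _ => by ring

lemma EvM_apply (x : Fin d → ℝ) (P : MB d) : EvM x P = ∑ j : Option (Fin d), ∑ l : Option (Fin d),
    ((j.elim 1 x : ℝ) ⊗ₜ[ℚ] (l.elim 1 x : ℝ)) * P j l := rfl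

/-- Multiplication. -/
noncomputable abbrev mm : BB →ₐ[ℚ] ℝ := Algebra.TensorProduct.lmul' ℚ

/-- The spatial block after multiplication. -/
noncomputable def muM : MB d →ₗ[ℚ] Matrix (Fin d) (Fin d) ℝ where
  toFun P := Matrix.of fun j l => mm (P (some j) (some l))
  map_add' P Q := by ext; simp
  map_smul' c P := by ext; simp

lemma muM_apply (P : MB d) (j l : Fin d) : muM P j l = mm (P (some j) (some l)) := rfl

lemma muM_smul (c : BB) (P : MB d) : muM (c • P) = mm c • muM P := by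
  ext; simp [muM_apply]

/-- The tensor condition over the reals, in matrix form. -/
def TM (a : ι → Fin d → ℝ) : Prop := ∃ P : MB d, (∀ i, EvM (a i) P = 0) ∧ muM P = 1

/-- The rank one tensor matrix of a pair of affine functions. -/
noncomputable def Pm (φ ψ : Aff d) : MB d :=
  Matrix.of fun j l => (j.elim φ.1 φ.2 : ℝ) ⊗ₜ[ℚ] (l.elim ψ.1 ψ.2 : ℝ)

lemma ev_eq_sum (x : Fin d → ℝ) (φ : Aff d) :
    ev x φ = ∑ j : Option (Fin d), (j.elim 1 x : ℝ) * j.elim φ.1 φ.2 := by
  simp [ev_apply, Fintype.sum_option, dotProduct, mul_comm]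

lemma EvM_Pm (x : Fin d → ℝ) (φ ψ : Aff d) : EvM x (Pm φ ψ) = ev x φ ⊗ₜ[ℚ] ev x ψ := by
  rw [EvM_apply, ev_eq_sum, ev_eq_sum, TensorProduct.sum_tmul]
  refine Finset.sum_congr rfl fun j _ => ?_
  rw [TensorProduct.tmul_sum]
  refine Finset.sum_congr rfl fun l _ => ?_
  simp [Pm]

lemma muM_Pm (φ ψ : Aff d) : muM (Pm φ ψ) = vecMulVec φ.2 ψ.2 := by
  ext; simp [muM_apply, Pm, vecMulVec_apply]

lemma exists_list (P : MB d) : ∃ L : List (Aff d × Aff d), P = (L.map fun p => Pm p.1 p.2).sum := by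
  let S : AddSubmonoid (MB d) :=
    { carrier := {P | ∃ L : List (Aff d × Aff d), P = (L.map fun p => Pm p.1 p.2).sum}
      zero_mem' := ⟨[], rfl⟩
      add_mem' := by
        rintro _ _ ⟨L, rfl⟩ ⟨L', rfl⟩
        exact ⟨L ++ L', by simp⟩ }
  have h1 : ∀ j l (w : BB), Matrix.single j l w ∈ S := by
    intro j l w
    induction w using TensorProduct.induction_on with
    | zero => simp
    | tmul x y =>
      let u : Option (Fin d) → ℝ → Aff d := fun j x =>
        ((Pi.single j x : Option (Fin d) → ℝ) none,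
          fun k => (Pi.single j x : Option (Fin d) → ℝ) (some k))
      have hu : ∀ j x (k : Option (Fin d)), k.elim (u j x).1 (u j x).2
          = (Pi.single j x : Option (Fin d) → ℝ) k := by
        intro j x k; cases k <;> rfl
      refine ⟨[(u j x, u l y)], ?_⟩
      ext p q
      simp only [List.map_cons, List.map_nil, List.sum_cons, List.sum_nil, add_zero, Pm,
        Matrix.of_apply, hu, Matrix.single_apply, Pi.single_apply]
      by_cases h1 : j = p <;> by_cases h2 : l = q <;> simp [h1, h2, eq_comm]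
    | add x y hx hy => rw [Matrix.single_add]; exact S.add_mem hx hy
  change P ∈ S
  rw [Matrix.matrix_eq_sum_single P]
  exact S.sum_mem fun j _ => S.sum_mem fun l _ => h1 j l _

lemma TM.toTC {a : ι → Fin d → ℝ} (h : TM a) : TC a := by
  obtain ⟨P, h1, h2⟩ := h
  obtain ⟨L, rfl⟩ := exists_list P
  refine ⟨L, fun i => ?_, ?_⟩
  · have := h1 i
    rw [map_list_sum, List.map_map] at this
    rw [← this]; congr 1
    exact List.map_congr_left fun p _ => (EvM_Pm _ _ _).symm
  · rw [map_list_sum, List.map_map] at h2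
    rw [← h2]; congr 1

lemma sum_getD (τ : List (Aff d)) (x y : Fin d → ℝ) :
    ∑ k : Fin (τ.length + 1), ((τ.map (ev x)).getD k 0 - (τ.map (ev y)).getD k 0) ^ 2
      = (x - y) ⬝ᵥ (wt τ *ᵥ (x - y)) := by
  induction τ with
  | nil => simp
  | cons φ τ ih =>
    rw [List.length_cons, Fin.sum_univ_succ]
    simp only [List.map_cons, Fin.val_zero, List.getD_cons_zero, Fin.val_succ,
      List.getD_cons_succ, ih, wt_cons, add_mulVec, dotProduct_add, wt1, vecMulVec_mulVec,
      ev_apply]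
    congr 1
    simp only [dotProduct_smul, dotProduct_sub, dotProduct_comm (x - y) φ.2]
    simp; ring

theorem ramsey_of_TM (A : Set (EuclideanSpace ℝ (Fin d))) (hA : A.Finite)
    (h : TM fun x : A => x.1.ofLp) : IsRamsey A := by
  classical
  have := hA.fintype
  intro r _
  by_contra hcon
  push Not at hcon
  choose c hc using fun D : ℕ => hcon (D + 1) (by omega)
  let emb : ∀ n : ℕ, List ℝ → EuclideanSpace ℝ (Fin (n + 1)) := fun n l =>
    WithLp.toLp 2 fun k => l.getD k 0
  obtain ⟨τ, k, h1, h2⟩ := stage_two (a := fun x : A => x.1.ofLp)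
    (fun x y hxy => Subtype.ext (WithLp.ofLp_injective 2 hxy)) h.toTC
    (fun u => c u.toList.length (emb _ u.toList))
  have h3 : ∀ (n : ℕ) (l : List ℝ), l.length = n → c l.length (emb _ l) = c n (emb n l) := by
    intro n l hl; subst hl; rfl
  obtain ⟨x, hx⟩ := hc τ.length (fun x => emb τ.length (τ.map (ev x.1.ofLp))) (by
    intro x y
    rw [EuclideanSpace.dist_eq, EuclideanSpace.dist_eq]
    congr 1
    simp only [Real.dist_eq, sq_abs, emb]
    rw [sum_getD, h1, one_mulVec]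
    simp [dotProduct, sq]) k
  apply hx
  rw [← h2 x]
  exact (h3 _ _ (by simp)).symm

lemma exists_affine_rep [Fintype ι] {D : ℕ} (a : ι → EuclideanSpace ℝ (Fin d))
    (f : ι → EuclideanSpace ℝ (Fin D)) (hf : ∀ i j, dist (f i) (f j) = dist (a i) (a j)) :
    ∃ (φ : Fin D → Aff d) (χ : Fin d → Aff d), (∀ i k, ev (a i).ofLp (φ k) = f i k) ∧
      (∀ i p, ev (a i).ofLp (χ p) = 0) ∧ ∑ k, wt1 (φ k) + ∑ p, wt1 (χ p) = 1 := by
  classical
  rcases isEmpty_or_nonempty ι with hι | ⟨⟨i0⟩⟩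
  · refine ⟨0, fun p => (0, Pi.single p 1), fun i => hι.elim i, fun i => hι.elim i, ?_⟩
    ext p q
    simp [wt1, vecMulVec_apply, Matrix.sum_apply, Pi.single_apply, Matrix.one_apply]
  let L0 := Fintype.linearCombination ℝ fun i => a i - a i0
  let L1 := Fintype.linearCombination ℝ fun i => f i - f i0
  have hin : ∀ i j, ⟪f i - f i0, f j - f i0⟫_ℝ = ⟪a i - a i0, a j - a i0⟫_ℝ := by
    intro i j
    rw [real_inner_eq_norm_mul_self_add_norm_mul_self_sub_norm_sub_mul_self_div_two,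
      real_inner_eq_norm_mul_self_add_norm_mul_self_sub_norm_sub_mul_self_div_two]
    simp only [sub_sub_sub_cancel_right, ← dist_eq_norm, hf]
  have hL : ∀ c c', ⟪L1 c, L1 c'⟫_ℝ = ⟪L0 c, L0 c'⟫_ℝ := by
    intro c c'
    simp only [L0, L1, Fintype.linearCombination_apply, sum_inner, inner_sum, inner_smul_left,
      inner_smul_right, hin]
  set W := LinearMap.range L0 with hW
  obtain ⟨s, hs⟩ := LinearMap.exists_rightInverse_of_surjective L0.rangeRestrict
    (LinearMap.range_rangeRestrict L0)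
  have hs' : ∀ w : W, L0 (s w) = w := fun w => congrArg Subtype.val (LinearMap.congr_fun hs w)
  let T : EuclideanSpace ℝ (Fin d) →ₗ[ℝ] EuclideanSpace ℝ (Fin D) :=
    L1 ∘ₗ s ∘ₗ W.orthogonalProjectionOnto.toLinearMap
  have hT : ∀ x y, ⟪T x, T y⟫_ℝ = ⟪W.starProjection x, W.starProjection y⟫_ℝ := by
    intro x y
    simp only [T, LinearMap.comp_apply, hL, hs']
    rfl
  have hmem : ∀ i, a i - a i0 ∈ W := fun i => ⟨Pi.single i 1, by simp [L0]⟩
  have hTa : ∀ i, T (a i - a i0) = f i - f i0 := by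
    intro i
    have e1 : L1 (Pi.single i 1) = f i - f i0 := by simp [L1]
    have e0 : L0 (Pi.single i 1) = a i - a i0 := by simp [L0]
    rw [← e1, ← sub_eq_zero]
    simp only [T, LinearMap.comp_apply]
    rw [← map_sub, ← inner_self_eq_zero (𝕜 := ℝ), hL, inner_self_eq_zero, map_sub, hs', e0,
      sub_eq_zero]
    exact Submodule.starProjection_eq_self_iff.2 (hmem i)
  let Q : EuclideanSpace ℝ (Fin d) →ₗ[ℝ] EuclideanSpace ℝ (Fin d) := Wᗮ.starProjection.toLinearMap
  have hQ : ∀ i, Q (a i - a i0) = 0 := fun i =>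
    Submodule.starProjection_orthogonal_apply_eq_zero (hmem i)
  have hlin : ∀ {n : ℕ} (S : EuclideanSpace ℝ (Fin d) →ₗ[ℝ] EuclideanSpace ℝ (Fin n))
      (x : EuclideanSpace ℝ (Fin d)) (k : Fin n),
      (fun j => S (EuclideanSpace.single j 1) k) ⬝ᵥ x.ofLp = S x k := by
    intro n S x k
    conv_rhs => rw [← (EuclideanSpace.basisFun (Fin d) ℝ).sum_repr x]
    simp [dotProduct, mul_comm]
  refine ⟨fun k => (f i0 k - T (a i0) k, fun j => T (EuclideanSpace.single j 1) k),
    fun p => (- Q (a i0) p, fun j => Q (EuclideanSpace.single j 1) p), ?_, ?_, ?_⟩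
  · intro i k
    have := congrArg (fun v => v.ofLp k) (hTa i)
    simp only [map_sub, PiLp.sub_apply] at this
    simp only [ev_apply, hlin]; linarith
  · intro i p
    have := congrArg (fun v => v.ofLp p) (hQ i)
    simp only [map_sub, PiLp.sub_apply, PiLp.zero_apply] at this
    simp only [ev_apply, hlin]; linarith
  · ext j l
    have e1 := hT (EuclideanSpace.single j 1) (EuclideanSpace.single l 1)
    have e2 : ∀ x y : EuclideanSpace ℝ (Fin d), ⟪W.starProjection x, W.starProjection y⟫_ℝ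
        + ⟪Q x, Q y⟫_ℝ = ⟪x, y⟫_ℝ := by
      intro x y
      conv_rhs => rw [← W.starProjection_add_starProjection_orthogonal x,
        ← W.starProjection_add_starProjection_orthogonal y]
      rw [inner_add_left, inner_add_right, inner_add_right,
        Submodule.inner_right_of_mem_orthogonal (W.starProjection_apply_mem x)
          (Wᗮ.starProjection_apply_mem y),
        Submodule.inner_left_of_mem_orthogonal (W.starProjection_apply_mem y)
          (Wᗮ.starProjection_apply_mem x)]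
      simp [Q]
    have e3 := e2 (EuclideanSpace.single j 1) (EuclideanSpace.single l 1)
    rw [← e1] at e3
    simp only [PiLp.inner_apply, RCLike.inner_apply, conj_trivial] at e3
    simp only [Matrix.add_apply, Matrix.sum_apply, wt1, vecMulVec_apply, Matrix.one_apply]
    simp_rw [mul_comm (T (EuclideanSpace.single j 1) _), mul_comm (Q (EuclideanSpace.single j 1) _)]
    rw [e3]
    simp [eq_comm]

/-- The tensor square norm. -/
noncomputable def QQ {D : ℕ} (x : EuclideanSpace ℝ (Fin D)) : BB := ∑ k, x k ⊗ₜ[ℚ] x k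

lemma iso_P [Fintype ι] {D : ℕ} (a : ι → EuclideanSpace ℝ (Fin d))
    (f : ι → EuclideanSpace ℝ (Fin D)) (hf : ∀ i j, dist (f i) (f j) = dist (a i) (a j)) :
    ∃ P : MB d, (∀ i, EvM (a i).ofLp P = QQ (f i)) ∧ muM P = 1 := by
  obtain ⟨φ, χ, h1, h2, h3⟩ := exists_affine_rep a f hf
  refine ⟨∑ k, Pm (φ k) (φ k) + ∑ p, Pm (χ p) (χ p), fun i => ?_, ?_⟩
  · simp [EvM_Pm, h1, h2, QQ]
  · simpa [muM_Pm, wt1] using h3

lemma EvM_const (x : Fin d → ℝ) (w : BB) : EvM x (w • Pm (cst 1) (cst 1)) = w := by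
  simp [EvM_Pm, ← Algebra.TensorProduct.one_def]

lemma muM_const (w : BB) : muM (w • Pm (cst 1 : Aff d) (cst 1)) = 0 := by
  simp [muM_smul, muM_Pm, cst]

theorem TM_of_ramsey (A : Set (EuclideanSpace ℝ (Fin d))) (hA : A.Finite) (h : IsRamsey A) :
    TM fun x : A => x.1.ofLp := by
  classical
  have := hA.fintype
  by_contra hcon
  let Ev : MB d →ₗ[ℚ] (A → BB) := LinearMap.pi fun x : A => (EvM x.1.ofLp).restrictScalars ℚ
  have hnot : (1 : Matrix (Fin d) (Fin d) ℝ) ∉ (LinearMap.ker Ev).map muM := by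
    rintro ⟨P, hP, hP1⟩
    exact hcon ⟨P, fun i => congrFun hP i, hP1⟩
  obtain ⟨l0, hl0, hl⟩ := Submodule.exists_dual_map_eq_bot_of_notMem hnot inferInstance
  let lam : Module.Dual ℚ (MB d) := ((l0 1)⁻¹ • l0) ∘ₗ muM
  have hlam : lam ∈ (LinearMap.ker Ev).dualAnnihilator := by
    rw [Submodule.mem_dualAnnihilator]
    intro P hP
    have : l0 (muM P) ∈ (⊥ : Submodule ℚ ℚ) :=
      hl ▸ Submodule.mem_map_of_mem (Submodule.mem_map_of_mem hP)
    simp [lam, (Submodule.mem_bot ℚ).1 this]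
  rw [← LinearMap.range_dualMap_eq_dualAnnihilator_ker] at hlam
  obtain ⟨χ, hχ⟩ := hlam
  let χi : A → BB → ℚ := fun i w => χ (Pi.single i w)
  have hsum : ∀ P : MB d, ∑ i, χi i (EvM i.1.ofLp P) = (l0 1)⁻¹ * l0 (muM P) := by
    intro P
    have e := LinearMap.congr_fun hχ P
    simp only [LinearMap.dualMap_apply, lam, LinearMap.comp_apply, LinearMap.smul_apply,
      smul_eq_mul] at e
    rw [← e, ← map_sum]
    congr 1
    exact Finset.univ_sum_single (Ev P)
  set N : ℕ := Fintype.card A + 1 with hN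
  have hN0 : (0 : ℚ) < N := by positivity
  have : NeZero (2 * N) := ⟨by omega⟩
  obtain ⟨e⟩ : Nonempty ((A → ZMod (2 * N)) ↪ Fin (Fintype.card (A → ZMod (2 * N)) + 2)) :=
    Function.Embedding.nonempty_of_card_le (by simp)
  obtain ⟨D, -, hD⟩ := h (Fintype.card (A → ZMod (2 * N)) + 2) (by omega)
  obtain ⟨f, hf, k, hk⟩ := hD fun x => e fun i => ((⌊N * χi i (QQ x)⌋ : ℤ) : ZMod (2 * N))
  obtain ⟨P, hP1, hP2⟩ := iso_P (fun x : A => x.1) f hf
  have s1 : ∑ i, χi i (QQ (f i)) = 1 := by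
    have := hsum P
    simp only [hP1, hP2, inv_mul_cancel₀ hl0] at this
    exact this
  rcases isEmpty_or_nonempty A with hι | ⟨⟨i0⟩⟩
  · simp at s1
  have s0 : ∑ i, χi i (QQ (f i0)) = 0 := by
    have := hsum (QQ (f i0) • Pm (cst 1) (cst 1))
    simp only [EvM_const, muM_const, map_zero, mul_zero] at this
    exact this
  have hm : ∀ i, ∃ m : ℤ, |N * (χi i (QQ (f i)) - χi i (QQ (f i0))) - 2 * N * m| < 1 := by
    intro i
    have e1 := congrFun (e.injective ((hk i0).trans (hk i).symm)) i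
    obtain ⟨m, hm⟩ := (ZMod.intCast_eq_intCast_iff_dvd_sub _ _ _).1 e1
    refine ⟨m, ?_⟩
    have hm' : ((⌊N * χi i (QQ (f i))⌋ : ℤ) : ℚ) - ⌊N * χi i (QQ (f i0))⌋ = 2 * N * m := by
      exact_mod_cast hm
    have a1 := Int.floor_le (N * χi i (QQ (f i)))
    have a2 := Int.lt_floor_add_one (N * χi i (QQ (f i)))
    have a3 := Int.floor_le (N * χi i (QQ (f i0)))
    have a4 := Int.lt_floor_add_one (N * χi i (QQ (f i0)))
    rw [abs_lt]; constructor <;> linarith
  choose m hm using hm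
  have h1 : |∑ i, (N * (χi i (QQ (f i)) - χi i (QQ (f i0))) - 2 * N * m i)| ≤ Fintype.card A := by
    refine (Finset.abs_sum_le_sum_abs _ _).trans ?_
    refine (Finset.sum_le_sum fun i _ => (hm i).le).trans (by simp)
  rw [Finset.sum_sub_distrib, ← Finset.mul_sum, Finset.sum_sub_distrib, s1, s0,
    ← Finset.mul_sum] at h1
  have h2 : (N : ℚ) * (1 - 0) - 2 * N * ∑ i, (m i : ℚ) = N * ((1 - 2 * ∑ i, m i : ℤ) : ℚ) := by
    push_cast; ring
  rw [h2, abs_mul, abs_of_pos hN0] at h1
  have h3 : (1 : ℤ) ≤ |1 - 2 * ∑ i, m i| := Int.one_le_abs (by omega)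
  have h4 : (1 : ℚ) ≤ |((1 - 2 * ∑ i, m i : ℤ) : ℚ)| := by exact_mod_cast h3
  have h5 : (N : ℚ) = Fintype.card A + 1 := by rw [hN]; push_cast; ring
  nlinarith

end Vale.Agent.P058
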