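import Vale.Agent.P058.GroupRing

namespace Vale.Agent.P058

open Matrix

/-- Affine functions on `ℝ^d`, as pairs (constant term, slope). -/
abbrev Aff (d : ℕ) := ℝ × (Fin d → ℝ)

variable {d : ℕ}

/-- Evaluation of affine functions at a point. -/
def ev (x : Fin d → ℝ) : Aff d →+ ℝ where
  toFun φ := φ.1 + φ.2 ⬝ᵥ x
  map_zero' := by simp
  map_add' φ ψ := by simp [add_dotProduct]; ring

lemma ev_apply (x : Fin d → ℝ) (φ : Aff d) : ev x φ = φ.1 + φ.2 ⬝ᵥ x := rfl

/-- Constant affine functions. -/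
def cst (u : ℝ) : Aff d := (u, 0)

@[simp] lemma ev_cst (x : Fin d → ℝ) (u : ℝ) : ev x (cst u) = u := by simp [ev_apply, cst]

lemma ev_surjective (x : Fin d → ℝ) : Function.Surjective (ev x) := fun u => ⟨cst u, ev_cst x u⟩

lemma dot_self_nonneg (t : Fin d → ℝ) : 0 ≤ t ⬝ᵥ t :=
  Finset.sum_nonneg fun i _ => mul_self_nonneg (t i)

lemma dot_self_pos {t : Fin d → ℝ} (ht : t ≠ 0) : 0 < t ⬝ᵥ t :=
  lt_of_le_of_ne (dot_self_nonneg t) (fun h => ht (dotProduct_self_eq_zero.1 h.symm))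

lemma exists_aff {x y : Fin d → ℝ} (h : x ≠ y) (u v : ℝ) :
    ∃ φ : Aff d, ev x φ = u ∧ ev y φ = v := by
  have hp := dot_self_pos (sub_ne_zero.2 h)
  refine ⟨(v - ((u - v) / ((x - y) ⬝ᵥ (x - y))) • (x - y) ⬝ᵥ y,
    ((u - v) / ((x - y) ⬝ᵥ (x - y))) • (x - y)), ?_, ?_⟩
  · have : (x - y) ⬝ᵥ x = (x - y) ⬝ᵥ (x - y) + (x - y) ⬝ᵥ y := by
      rw [← dotProduct_add]; simp
    simp only [ev_apply, smul_dotProduct, smul_eq_mul]
    rw [this]; field_simp; ring
  · simp [ev_apply]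

/-- The weight of an affine function. -/
def wt1 (φ : Aff d) : Matrix (Fin d) (Fin d) ℝ := vecMulVec φ.2 φ.2

/-- The total weight of a list of affine functions. -/
def wt (l : List (Aff d)) : Matrix (Fin d) (Fin d) ℝ := (l.map wt1).sum

@[simp] lemma wt_nil : wt ([] : List (Aff d)) = 0 := rfl
@[simp] lemma wt_cons (φ : Aff d) (l : List (Aff d)) : wt (φ :: l) = wt1 φ + wt l := by simp [wt]
@[simp] lemma wt_append (l l' : List (Aff d)) : wt (l ++ l') = wt l + wt l' := by simp [wt]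

lemma trace_wt1 (φ : Aff d) : (wt1 φ).trace = φ.2 ⬝ᵥ φ.2 := by
  simp [wt1, Matrix.trace_vecMulVec]

lemma trace_wt_nonneg (l : List (Aff d)) : 0 ≤ (wt l).trace := by
  induction l with
  | nil => simp
  | cons φ l ih => rw [wt_cons, trace_add, trace_wt1]; exact add_nonneg (dot_self_nonneg _) ih

/-- Weight on the group ring. -/
def wtR : GR (Aff d) →+ Matrix (Fin d) (Fin d) ℝ := lft wt1
/-- Augmentation. -/
def epsR : GR (Aff d) →+ ℝ := lft fun _ => 1
/-- First moment. -/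
def linR : GR (Aff d) →+ (Fin d → ℝ) := lft Prod.snd

@[simp] lemma wtR_br (φ : Aff d) : wtR (br φ) = wt1 φ := lft_br _ _
@[simp] lemma epsR_br (φ : Aff d) : epsR (br φ) = 1 := lft_br _ _
@[simp] lemma linR_br (φ : Aff d) : linR (br φ) = φ.2 := lft_br _ _
@[simp] lemma wtR_one : wtR (1 : GR (Aff d)) = 0 := by rw [← br_zero, wtR_br]; simp [wt1]
@[simp] lemma epsR_one : epsR (1 : GR (Aff d)) = 1 := by rw [← br_zero, epsR_br]
@[simp] lemma linR_one : linR (1 : GR (Aff d)) = 0 := by rw [← br_zero, linR_br]; simp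

lemma epsR_mul (x y : GR (Aff d)) : epsR (x * y) = epsR x * epsR y := by
  induction x using GR_ind with
  | h0 => simp
  | h1 v =>
    induction y using GR_ind with
    | h0 => simp
    | h1 w => rw [← br_add]; simp
    | h2 y hy => simp [hy]
    | h3 y z hy hz => simp [mul_add, hy, hz]
  | h2 x hx => simp [hx]
  | h3 x z hx hz => simp [add_mul, hx, hz]

lemma linR_mul (x y : GR (Aff d)) : linR (x * y) = epsR y • linR x + epsR x • linR y := by
  induction x using GR_ind with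
  | h0 => simp
  | h1 v =>
    induction y using GR_ind with
    | h0 => simp
    | h1 w => rw [← br_add]; simp
    | h2 y hy => simp [hy]; abel
    | h3 y z hy hz => simp [mul_add, hy, hz, add_smul]; abel
  | h2 x hx => simp [hx]; abel
  | h3 x z hx hz => simp [add_mul, hx, hz, add_smul]; abel

lemma wtR_mul (x y : GR (Aff d)) : wtR (x * y) = epsR y • wtR x + vecMulVec (linR x) (linR y)
    + vecMulVec (linR y) (linR x) + epsR x • wtR y := by
  induction x using GR_ind with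
  | h0 => simp
  | h1 v =>
    induction y using GR_ind with
    | h0 => simp
    | h1 w => rw [← br_add]; simp [wt1, add_vecMulVec, vecMulVec_add]; abel
    | h2 y hy => simp [hy]; abel
    | h3 y z hy hz => simp [mul_add, hy, hz, add_smul, add_vecMulVec, vecMulVec_add]; abel
  | h2 x hx => simp [hx]; abel
  | h3 x z hx hz => simp [add_mul, hx, hz, add_smul, add_vecMulVec, vecMulVec_add]; abel

lemma epsR_aug {x : GR (Aff d)} (hx : x ∈ aug (Aff d)) : epsR x = 0 := by
  induction hx using Submodule.span_induction with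
  | mem x hx => obtain ⟨v, rfl⟩ := hx; simp
  | zero => simp
  | add x y _ _ hx hy => simp [hx, hy]
  | smul r x _ hx => simp [epsR_mul, hx]

lemma linR_aug2 {x : GR (Aff d)} (hx : x ∈ aug (Aff d) ^ 2) : linR x = 0 := by
  rw [pow_two] at hx
  refine Submodule.mul_induction_on hx ?_ ?_
  · intro y hy z hz; simp [linR_mul, epsR_aug hy, epsR_aug hz]
  · intro y z hy hz; simp [hy, hz]

lemma wtR_aug3 {x : GR (Aff d)} (hx : x ∈ aug (Aff d) ^ 3) : wtR x = 0 := by
  rw [pow_succ] at hx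
  refine Submodule.mul_induction_on hx ?_ ?_
  · intro y hy z hz
    have hy' : y ∈ aug (Aff d) := Ideal.pow_le_self two_ne_zero hy
    simp [wtR_mul, epsR_aug hy', epsR_aug hz, linR_aug2 hy]
  · intro y z hy hz; simp [hy, hz]

/-- The group ring element attached to a list. -/
def toR (l : List (Aff d)) : GR (Aff d) := (l.map br).sum

@[simp] lemma toR_nil : toR ([] : List (Aff d)) = 0 := rfl
@[simp] lemma toR_cons (φ : Aff d) (l : List (Aff d)) : toR (φ :: l) = br φ + toR l := by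
  simp [toR]
@[simp] lemma toR_append (l l' : List (Aff d)) : toR (l ++ l') = toR l + toR l' := by simp [toR]

@[simp] lemma wtR_toR (l : List (Aff d)) : wtR (toR l) = wt l := by
  induction l with
  | nil => simp
  | cons φ l ih => simp [ih]

/-- Nonnegative elements of the group ring. -/
def Pos (x : GR (Aff d)) : Prop := ∃ l, x = toR l

lemma Pos.zero : Pos (0 : GR (Aff d)) := ⟨[], rfl⟩
lemma Pos.br (φ : Aff d) : Pos (br φ) := ⟨[φ], by simp⟩
lemma Pos.one : Pos (1 : GR (Aff d)) := Pos.br 0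
lemma Pos.add {x y : GR (Aff d)} (hx : Pos x) (hy : Pos y) : Pos (x + y) := by
  obtain ⟨l, rfl⟩ := hx; obtain ⟨l', rfl⟩ := hy; exact ⟨l ++ l', by simp⟩
lemma Pos.mul {x y : GR (Aff d)} (hx : Pos x) (hy : Pos y) : Pos (x * y) := by
  obtain ⟨l, rfl⟩ := hx; obtain ⟨l', rfl⟩ := hy
  induction l with
  | nil => simpa using Pos.zero
  | cons φ l ih =>
    rw [toR_cons, add_mul]
    refine Pos.add ?_ ih
    clear ih
    induction l' with
    | nil => simpa using Pos.zero
    | cons ψ l' ih => rw [toR_cons, mul_add, ← br_add]; exact (Pos.br _).add ih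
lemma Pos.natCast (m : ℕ) : Pos (m : GR (Aff d)) := by
  induction m with
  | zero => simpa using Pos.zero
  | succ m ih => push_cast; exact ih.add Pos.one
lemma Pos.sum {κ : Type*} (s : Finset κ) (f : κ → GR (Aff d)) (h : ∀ k ∈ s, Pos (f k)) :
    Pos (∑ k ∈ s, f k) :=
  Finset.sum_induction f Pos (fun _ _ => Pos.add) Pos.zero h
lemma Pos.tr_nonneg {x : GR (Aff d)} (hx : Pos x) : 0 ≤ (wtR x).trace := by
  obtain ⟨l, rfl⟩ := hx; simpa using trace_wt_nonneg l
lemma Pos.sc (m : ℕ) {x : GR (Aff d)} (hx : Pos x) : Pos (sc m x) := by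
  obtain ⟨l, rfl⟩ := hx
  induction l with
  | nil => simpa using Pos.zero
  | cons φ l ih => rw [toR_cons, map_add, sc_br]; exact (Pos.br _).add ih

lemma exists_pos_sub (x : GR (Aff d)) : ∃ p q, Pos p ∧ Pos q ∧ x = p - q := by
  induction x using GR_ind with
  | h0 => exact ⟨0, 0, Pos.zero, Pos.zero, by simp⟩
  | h1 v => exact ⟨br v, 0, Pos.br v, Pos.zero, by simp⟩
  | h2 x hx => obtain ⟨p, q, hp, hq, rfl⟩ := hx; exact ⟨q, p, hq, hp, by simp⟩
  | h3 x y hx hy =>
    obtain ⟨p, q, hp, hq, rfl⟩ := hx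
    obtain ⟨p', q', hp', hq', rfl⟩ := hy
    exact ⟨p + p', q + q', hp.add hp', hq.add hq', by ring⟩

lemma wtR_sc (m : ℕ) (x : GR (Aff d)) : wtR (sc m x) = ((m : ℝ) ^ 2) • wtR x := by
  induction x using GR_ind with
  | h0 => simp
  | h1 v => ext i j; simp [wt1, vecMulVec_apply]; ring
  | h2 x hx => simp [hx]
  | h3 x y hx hy => simp [hx, hy]

/-- Averaging elements. -/
structure Avg (π : GR (Aff d)) (M : ℝ) : Prop where
  pos : Pos π
  lin : linR π = 0
  wt : wtR π = 0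
  eps : epsR π = M
  lt : 0 < M

lemma Avg.wtR_mul {π : GR (Aff d)} {M : ℝ} (h : Avg π M) (x : GR (Aff d)) :
    wtR (x * π) = M • wtR x := by
  simp [Vale.Agent.P058.wtR_mul, h.lin, h.wt, h.eps]

lemma Avg.mul {π π' : GR (Aff d)} {M M' : ℝ} (h : Avg π M) (h' : Avg π' M') :
    Avg (π * π') (M * M') where
  pos := h.pos.mul h'.pos
  lin := by simp [linR_mul, h.lin, h'.lin]
  wt := by simp [h'.wtR_mul, h.wt]
  eps := by simp [epsR_mul, h.eps, h'.eps]
  lt := mul_pos h.lt h'.lt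

lemma Avg.cst (u : ℝ) : Avg (br (cst u : Aff d)) 1 where
  pos := Pos.br _
  lin := by simp [Vale.Agent.P058.cst]
  wt := by simp [wt1, Vale.Agent.P058.cst]
  eps := by simp
  lt := one_pos

lemma Avg.one : Avg (1 : GR (Aff d)) 1 := ⟨Pos.one, by simp, by simp, by simp, one_pos⟩

lemma Avg.natCast {m : ℕ} (hm : 0 < m) : Avg (m : GR (Aff d)) m where
  pos := Pos.natCast m
  lin := by rw [← nsmul_one, map_nsmul]; simp
  wt := by rw [← nsmul_one, map_nsmul]; simp
  eps := by rw [← nsmul_one, map_nsmul]; simp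
  lt := by exact_mod_cast hm

variable (K : Ideal (GR (Aff d)))

/-- `x` has averaged cost at most `r` modulo weightless elements of `K`. -/
def Small (x : GR (Aff d)) (r : ℝ) : Prop :=
  ∃ π M, Avg π M ∧ ∃ p q, Pos p ∧ Pos q ∧ x * π - (p - q) ∈ K ∧ wtR (x * π - (p - q)) = 0 ∧
    (wtR p).trace + (wtR q).trace ≤ r * M

variable {K}

lemma Small.mono {x : GR (Aff d)} {r r' : ℝ} (h : Small K x r) (hr : r ≤ r') : Small K x r' := by
  obtain ⟨π, M, hπ, p, q, hp, hq, h1, h2, h3⟩ := h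
  exact ⟨π, M, hπ, p, q, hp, hq, h1, h2, h3.trans (mul_le_mul_of_nonneg_right hr hπ.lt.le)⟩

lemma Small.neg {x : GR (Aff d)} {r : ℝ} (h : Small K x r) : Small K (-x) r := by
  obtain ⟨π, M, hπ, p, q, hp, hq, h1, h2, h3⟩ := h
  have e : -x * π - (q - p) = -(x * π - (p - q)) := by ring
  exact ⟨π, M, hπ, q, p, hq, hp, e ▸ K.neg_mem h1, by rw [e, map_neg, h2, neg_zero], by linarith⟩

lemma Small.add {x y : GR (Aff d)} {r r' : ℝ} (h : Small K x r) (h' : Small K y r') :
    Small K (x + y) (r + r') := by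
  obtain ⟨π, M, hπ, p, q, hp, hq, h1, h2, h3⟩ := h
  obtain ⟨π', M', hπ', p', q', hp', hq', h1', h2', h3'⟩ := h'
  have e : (x + y) * (π * π') - ((p * π' + p' * π) - (q * π' + q' * π))
      = (x * π - (p - q)) * π' + (y * π' - (p' - q')) * π := by ring
  refine ⟨π * π', M * M', hπ.mul hπ', p * π' + p' * π, q * π' + q' * π,
    (hp.mul hπ'.pos).add (hp'.mul hπ.pos), (hq.mul hπ'.pos).add (hq'.mul hπ.pos), ?_, ?_, ?_⟩
  · rw [e]; exact K.add_mem (K.mul_mem_right _ h1) (K.mul_mem_right _ h1')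
  · rw [e, map_add, hπ.wtR_mul, hπ'.wtR_mul, h2, h2']; simp
  · simp only [map_add, hπ.wtR_mul, hπ'.wtR_mul, trace_add, trace_smul, smul_eq_mul]
    nlinarith [mul_le_mul_of_nonneg_left h3 hπ'.lt.le, mul_le_mul_of_nonneg_left h3' hπ.lt.le]

lemma Small.of_pos {p q : GR (Aff d)} (hp : Pos p) (hq : Pos q) :
    Small K (p - q) ((wtR p).trace + (wtR q).trace) :=
  ⟨1, 1, Avg.one, p, q, hp, hq, by simp, by simp, by simp⟩

lemma Small.of_mem {x : GR (Aff d)} (h1 : x ∈ K) (h2 : wtR x = 0) : Small K x 0 :=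
  ⟨1, 1, Avg.one, 0, 0, Pos.zero, Pos.zero, by simpa, by simpa, by simp⟩

lemma Small.of_natCast_mul {x : GR (Aff d)} {r : ℝ} {m : ℕ} (hm : 0 < m)
    (h : Small K (m * x) r) : Small K x (r / m) := by
  obtain ⟨π, M, hπ, p, q, hp, hq, h1, h2, h3⟩ := h
  have e : x * (m * π) = m * x * π := by ring
  have hm' : (0 : ℝ) < m := by exact_mod_cast hm
  refine ⟨m * π, m * M, (Avg.natCast hm).mul hπ, p, q, hp, hq, e ▸ h1, e ▸ h2, ?_⟩
  rw [show r / m * (m * M) = r * M by field_simp]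
  exact h3

lemma Small.cst_mul (u : ℝ) (x : GR (Aff d)) {η : ℝ} (hη : 0 < η) :
    Small K ((br (cst u) - 1) * x) η := by
  obtain ⟨p, q, hp, hq, rfl⟩ := exists_pos_sub x
  obtain ⟨m, hm⟩ := exists_nat_gt (2 * ((wtR p).trace + (wtR q).trace) / η)
  have hC : 0 ≤ 2 * ((wtR p).trace + (wtR q).trace) / η :=
    div_nonneg (by linarith [hp.tr_nonneg, hq.tr_nonneg]) hη.le
  have hm0 : (0 : ℝ) < m := lt_of_le_of_lt hC hm
  have hpow : ∀ j : ℕ, br (cst u : Aff d) ^ j = br (cst (j * u)) := by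
    intro j
    induction j with
    | zero => simp [cst]; rfl
    | succ j ih => rw [pow_succ, ih, ← br_add]; congr 1; simp [cst]; ring
  have hπ : Avg (∑ j ∈ Finset.range m, br (cst u : Aff d) ^ j) m := by
    refine ⟨Pos.sum _ _ fun j _ => hpow j ▸ Pos.br _, ?_, ?_, ?_, hm0⟩
    · simp only [hpow]; simp [cst]
    · simp only [hpow]; simp [cst, wt1]
    · simp [hpow]
  have e : (br (cst u) - 1) * (p - q) * (∑ j ∈ Finset.range m, br (cst u : Aff d) ^ j)
      - ((p * br (cst (m * u)) + q) - (q * br (cst (m * u)) + p)) = 0 := by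
    have := mul_geom_sum (br (cst u : Aff d)) m
    rw [← hpow]
    linear_combination (p - q) * this
  refine ⟨_, m, hπ, p * br (cst (m * u)) + q, q * br (cst (m * u)) + p,
    (hp.mul (Pos.br _)).add hq, (hq.mul (Pos.br _)).add hp, e ▸ K.zero_mem, by rw [e, map_zero],
    ?_⟩
  simp only [map_add, (Avg.cst _).wtR_mul, one_smul, trace_add]
  rw [div_lt_iff₀ hη] at hm
  linarith

variable (K) in
/-- Negligible elements. -/
def Negl : AddSubgroup (GR (Aff d)) where
  carrier := {x | ∀ η : ℝ, 0 < η → Small K x η}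
  zero_mem' := fun η hη => (Small.of_mem K.zero_mem (map_zero _)).mono hη.le
  add_mem' := fun {x y} hx hy η hη => by
    simpa using (hx (η / 2) (by positivity)).add (hy (η / 2) (by positivity))
  neg_mem' := fun {x} hx η hη => (hx η hη).neg

lemma mem_Negl {x : GR (Aff d)} : x ∈ Negl K ↔ ∀ η : ℝ, 0 < η → Small K x η := Iff.rfl

lemma negl_descend {k : ℕ} (hk : 3 ≤ k) (h : ∀ x ∈ aug (Aff d) ^ (k + 1), x ∈ Negl K) :
    ∀ x ∈ aug (Aff d) ^ k, x ∈ Negl K := by
  intro x hx η hη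
  obtain ⟨p, q, hp, hq, rfl⟩ := exists_pos_sub x
  set C := (wtR p).trace + (wtR q).trace with hC
  have hC0 : 0 ≤ C := add_nonneg hp.tr_nonneg hq.tr_nonneg
  obtain ⟨m, hm⟩ := exists_nat_gt ((C + 1) / η + 1)
  have h0 : 0 < (C + 1) / η := by positivity
  have hm1 : (1 : ℝ) ≤ m := by linarith
  have hm0 : 0 < m := by exact_mod_cast (lt_of_lt_of_le one_pos hm1)
  have h1 : Small K (sc m (p - q)) ((m : ℝ) ^ 2 * C) := by
    have := Small.of_pos (K := K) (hp.sc m) (hq.sc m)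
    rw [map_sub]
    convert this using 1
    simp [wtR_sc, hC, mul_add]
  have h2 := (h _ (sc_pow_mem m k hx) 1 one_pos).neg
  have h3 := h1.add h2
  have e : sc m (p - q) + -(sc m (p - q) - (m : GR (Aff d)) ^ k * (p - q))
      = ((m ^ k : ℕ) : GR (Aff d)) * (p - q) := by push_cast; ring
  rw [e] at h3
  refine (Small.of_natCast_mul (pow_pos hm0 k) h3).mono ?_
  have h4 : (m : ℝ) ^ 3 ≤ (m : ℝ) ^ k := pow_le_pow_right₀ hm1 hk
  have h5 : C + 1 < m * η := by
    have : (C + 1) / η < m := by linarith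
    rwa [div_lt_iff₀ hη] at this
  have h6 : (1 : ℝ) ≤ m ^ 2 := one_le_pow₀ hm1
  push_cast
  rw [div_le_iff₀ (by positivity)]
  nlinarith [mul_le_mul_of_nonneg_left h4 hη.le, mul_le_mul_of_nonneg_left h5.le (sq_nonneg (m : ℝ))]

end Vale.Agent.P058
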