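import Vale.Agent.P058.Alg

namespace Vale.Agent.P058

open Matrix Filter Topology

attribute [local instance] Ultrafilter.mul Ultrafilter.semigroup

variable {d : ℕ} {ι : Type*}

/-- Tagged words. -/
abbrev SW := FreeMonoid ℝ × Multiplicative ℝ

lemma pure_mul_eq {M : Type*} [Mul M] (s : M) (V : Ultrafilter M) :
    (pure s : Ultrafilter M) * V = V.map (s * ·) :=
  Ultrafilter.coe_inj.mp <| Filter.ext' fun p => by
    rw [Ultrafilter.eventually_mul]; simp

lemma pure_mul_pure' {M : Type*} [Mul M] (s t : M) :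
    (pure s : Ultrafilter M) * pure t = pure (s * t) := by
  rw [pure_mul_eq]; rfl

lemma continuous_umap {α β : Type*} (f : α → β) :
    Continuous (Ultrafilter.map f : Ultrafilter α → Ultrafilter β) :=
  ultrafilterBasis_is_basis.continuous_iff.2 <| Set.forall_mem_range.mpr fun s =>
    ultrafilter_isOpen_basic (f ⁻¹' s)

lemma continuous_mul_X (y : ι → Ultrafilter SW) : Continuous (· * y) :=
  continuous_pi fun i => (Ultrafilter.continuous_mul_left (y i)).comp (continuous_apply i)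

variable (a : ι → Fin d → ℝ)

/-- The tuple of tagged words read off a list of affine functions. -/
def pt (τ : List (Aff d)) (ξ : ℝ) : ι → Ultrafilter SW := fun i =>
  pure (FreeMonoid.ofList (τ.map (ev (a i))), Multiplicative.ofAdd ξ)

lemma pt_mul (τ τ' : List (Aff d)) (ξ ξ' : ℝ) :
    pt a τ ξ * pt a τ' ξ' = pt a (τ ++ τ') (ξ + ξ') := by
  ext1 i
  simp only [Pi.mul_apply, pt, pure_mul_pure']
  simp [ofAdd_add]

lemma continuous_pt_mul (τ : List (Aff d)) (ξ : ℝ) : Continuous (pt a τ ξ * ·) :=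
  continuous_pi fun i => by
    simp only [Pi.mul_apply, pt, pure_mul_eq]
    exact (continuous_umap _).comp (continuous_apply i)

/-- Generating set. -/
def gen (W : Matrix (Fin d) (Fin d) ℝ) (ε : ℝ) : Set (ι → Ultrafilter SW) :=
  {x | ∃ τ ξ, 0 ≤ ξ ∧ ξ ≤ ε ∧ wt τ = W + ξ • (1 : Matrix (Fin d) (Fin d) ℝ) ∧ x = pt a τ ξ}

/-- Limits of tuples of weight `W` plus a tag at most `ε`. -/
def KE (W : Matrix (Fin d) (Fin d) ℝ) (ε : ℝ) : Set (ι → Ultrafilter SW) := closure (gen a W ε)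

variable {a}

lemma KE_mul {W W' : Matrix (Fin d) (Fin d) ℝ} {ε ε' : ℝ} {x y : ι → Ultrafilter SW}
    (hx : x ∈ KE a W ε) (hy : y ∈ KE a W' ε') : x * y ∈ KE a (W + W') (ε + ε') := by
  have h1 : ∀ x ∈ gen a W ε, x * y ∈ KE a (W + W') (ε + ε') := by
    rintro _ ⟨τ, ξ, h0, h1, h2, rfl⟩
    refine map_mem_closure (continuous_pt_mul a τ ξ) hy ?_
    rintro _ ⟨τ', ξ', h0', h1', h2', rfl⟩
    exact ⟨τ ++ τ', ξ + ξ', by linarith, by linarith,
      by rw [wt_append, h2, h2', add_smul]; abel, pt_mul a _ _ _ _⟩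
  have := map_mem_closure (continuous_mul_X y) hx h1
  rwa [KE, closure_closure] at this

lemma KE_mono {W : Matrix (Fin d) (Fin d) ℝ} {ε ε' : ℝ} (h : ε ≤ ε') : KE a W ε ⊆ KE a W ε' := by
  refine closure_mono ?_
  rintro _ ⟨τ, ξ, h0, h1, h2, rfl⟩
  exact ⟨τ, ξ, h0, h1.trans h, h2, rfl⟩

lemma pt_mem_KE (τ : List (Aff d)) : pt a τ 0 ∈ KE a (wt τ) 0 :=
  subset_closure ⟨τ, 0, le_rfl, le_rfl, by simp, rfl⟩

lemma tag_mul_mem {ξ ε : ℝ} (hξ : 0 ≤ ξ) {x : ι → Ultrafilter SW}
    (hx : x ∈ KE a (ξ • (1 : Matrix (Fin d) (Fin d) ℝ)) ε) : pt a [] ξ * x ∈ KE a 0 (ξ + ε) := by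
  refine map_mem_closure (continuous_pt_mul a [] ξ) hx ?_
  rintro _ ⟨τ', ξ', h0', h1', h2', rfl⟩
  exact ⟨τ', ξ + ξ', by linarith, by linarith, by rw [h2', add_smul]; abel,
    by rw [pt_mul]; simp⟩

variable (a) in
/-- Limits with infinitesimal tag. -/
def KK (W : Matrix (Fin d) (Fin d) ℝ) : Set (ι → Ultrafilter SW) :=
  {x | ∀ ε : ℝ, 0 < ε → x ∈ KE a W ε}

lemma KK_mul {W W' : Matrix (Fin d) (Fin d) ℝ} {x y : ι → Ultrafilter SW}
    (hx : x ∈ KK a W) (hy : y ∈ KK a W') : x * y ∈ KK a (W + W') := fun ε hε => by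
  simpa using KE_mul (hx (ε / 2) (by positivity)) (hy (ε / 2) (by positivity))

lemma KK_closed (W : Matrix (Fin d) (Fin d) ℝ) : IsClosed (KK a W) := by
  have : KK a W = ⋂ ε : ℝ, ⋂ _ : 0 < ε, KE a W ε := by ext; simp [KK]
  rw [this]
  exact isClosed_iInter fun ε => isClosed_iInter fun _ => isClosed_closure

lemma pt_mem_KK (τ : List (Aff d)) : pt a τ 0 ∈ KK a (wt τ) :=
  fun _ hε => KE_mono hε.le (pt_mem_KE τ)

theorem stage_one [Fintype ι] [DecidableEq ι] (ha : Function.Injective a) (hT : TC a)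
    {α β : ℝ} (hα : 0 < α) (hβ : α < β) :
    ∃ y, y ∈ KK a (α • (1 : Matrix (Fin d) (Fin d) ℝ)) ∧
      y ∈ KK a (β • (1 : Matrix (Fin d) (Fin d) ℝ)) := by
  have hGmul : ∀ x ∈ KK a 0, ∀ y ∈ KK a 0, x * y ∈ KK a 0 := fun x hx y hy => by
    simpa using KK_mul hx hy
  obtain ⟨f, hfG, hff, hmin⟩ := exists_min_idem continuous_mul_X (KK a 0) (KK_closed 0)
    ⟨_, pt_mem_KK []⟩ hGmul
  have hfi : ∀ i, Fact (f i * f i = f i) := fun i => ⟨congrFun hff i⟩
  let val : (∀ i, CU (f i)) → ι → Ultrafilter SW := fun h i => (h i).1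
  have val_mul : ∀ g h, val (g * h) = val g * val h := fun g h => rfl
  have val_one : val 1 = f := rfl
  have val_l : ∀ h, f * val h = val h := fun h => funext fun i => (h i).2.1
  have val_r : ∀ h, val h * f = val h := fun h => funext fun i => (h i).2.2.1
  have hleft : ∀ ν ∈ KK a 0, ν * f = ν →
      ∃ ν' ∈ KK a 0, f * ν' = ν' ∧ ν' * f = ν' ∧ (f * ν = ν → ν' * ν = f) := by
    intro ν hν h1
    obtain ⟨x, hx, hx'⟩ := hmin ν hν
    refine ⟨f * x * f, hGmul _ (hGmul _ hfG _ hx) _ hfG, by rw [← mul_assoc, ← mul_assoc, hff],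
      by rw [mul_assoc, hff], fun h2 => ?_⟩
    rw [h1] at hx'
    rw [mul_assoc, h2, mul_assoc, hx', hff]
  have hlift : ∀ ν ∈ KK a 0, f * ν = ν → ν * f = ν → ∃ h, val h = ν := by
    intro ν hν h1 h2
    obtain ⟨ν', hν', g1, g2, g3⟩ := hleft ν hν h2
    obtain ⟨ν'', -, -, k2, k3⟩ := hleft ν' hν' g2
    have e : ν'' = ν := by
      calc ν'' = ν'' * (ν' * ν) := by rw [g3 h1, k2]
        _ = ν := by rw [← mul_assoc, k3 g1, h1]
    rw [e] at k3
    exact ⟨fun i => ⟨ν i, congrFun h1 i, congrFun h2 i, ν' i, congrFun g1 i, congrFun g2 i,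
      congrFun (k3 g1) i, congrFun (g3 h1) i⟩, rfl⟩
  let N : Subgroup (∀ i, CU (f i)) :=
    { carrier := {h | val h ∈ KK a 0}
      one_mem' := hfG
      mul_mem' := fun {g h} hg hh => hGmul _ hg _ hh
      inv_mem' := fun {h} hh => by
        obtain ⟨ν', hν', -, g2, g3⟩ := hleft _ hh (val_r h)
        have : val h⁻¹ = ν' := by
          calc val h⁻¹ = ν' * val h * val h⁻¹ := by rw [g3 (val_l h), val_l]
            _ = ν' := by rw [mul_assoc, ← val_mul, mul_inv_cancel, val_one, g2]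
        change val h⁻¹ ∈ KK a 0
        rwa [this] }
  have hN : ∀ h, h ∈ N ↔ val h ∈ KK a 0 := fun h => Iff.rfl
  have hsand : ∀ (φ : Aff d), f * pt a [φ] 0 * f ∈ KK a (wt1 φ) := fun φ => by
    simpa using KK_mul (KK_mul hfG (pt_mem_KK [φ])) hfG
  have hlet : ∀ x : ℝ, ∃ h, val h = f * pt a [cst x] 0 * f := fun x =>
    hlift _ (by simpa [wt1, cst] using hsand (cst x)) (by rw [← mul_assoc, ← mul_assoc, hff])
      (by rw [mul_assoc, hff])
  choose g hg using hlet
  have hgN : ∀ x, g x ∈ N := fun x => by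
    rw [hN, hg]; simpa [wt1, cst] using hsand (cst x)
  let φ : ∀ i, FreeGroup ℝ →* CU (f i) := fun i =>
    FreeGroup.lift fun x => g x i * (g 0 i)⁻¹
  have hφ : ∀ i x, φ i (FreeGroup.of x) = g x i * (g 0 i)⁻¹ := fun i x => by simp [φ]
  have hdg : ∀ y, (fun i => φ i y) ∈ N := by
    intro y
    induction y using FreeGroup.induction_on with
    | C1 => simp only [map_one]; exact N.one_mem
    | of x => simp only [hφ]; exact N.mul_mem (hgN x) (N.inv_mem (hgN 0))
    | inv_of x hx => simp only [map_inv]; exact N.inv_mem hx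
    | mul x y hx hy => simp only [map_mul]; exact N.mul_mem hx hy
  have hcol : ∀ ψ : Aff d, val (fun i => φ i (FreeGroup.of (ev (a i) ψ))) ∈ KK a (wt1 ψ) := by
    intro ψ
    have e : val (fun i => φ i (FreeGroup.of (ev (a i) ψ)))
        = f * pt a [ψ] 0 * f * val (g 0)⁻¹ := by
      ext1 i
      have := congrFun (hg (ev (a i) ψ)) i
      simp only [val, hφ, CU.val_mul, Pi.mul_apply, Pi.inv_apply] at this ⊢
      rw [this]; simp [pt]
    rw [e]
    simpa using KK_mul (hsand ψ) (N.inv_mem (hgN 0))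
  have hpath := fun i j (hij : i ≠ j) x ξ (hξ : 0 < ξ) => exists_path a ha φ
    (fun i => by simp [hφ]) (fun W => {h | val h ∈ KK a W})
    (fun W W' x y hx hy => KK_mul hx hy) hdg hcol hij x hξ
  have hpair0 : ∀ i j, i ≠ j → ∀ x, ∃ ν ∈ N, ν i = φ i (FreeGroup.of x) ∧ ν j = 1 := by
    intro i j hij x
    have hpos : ∀ m : ℕ, (0 : ℝ) < 1 / (m + 1) := fun m => by positivity
    choose h h1 h2 h3 using fun m : ℕ => hpath i j hij x _ (hpos m)
    choose k k1 k2 k3 using fun m : ℕ => hpath i j hij 0 _ (hpos m)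
    have hlim : ∀ u : ℕ → ∀ i, CU (f i),
        (∀ m : ℕ, val (u m) ∈ KK a ((1 / (m + 1) : ℝ) • (1 : Matrix (Fin d) (Fin d) ℝ))) →
        ∃ y ∈ KK a 0, y * f = y ∧
          Tendsto (fun m : ℕ => pt a [] (1 / (m + 1)) * val (u m)) (hyperfilter ℕ) (𝓝 y) := by
      intro u hu
      obtain ⟨y, -, hy⟩ := isCompact_univ.ultrafilter_le_nhds
        ((hyperfilter ℕ).map fun m : ℕ => pt a [] (1 / (m + 1)) * val (u m)) (by simp)
      have hy' : Tendsto (fun m : ℕ => pt a [] (1 / (m + 1)) * val (u m)) (hyperfilter ℕ)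
        (𝓝 y) := hy
      refine ⟨y, fun ε hε => ?_, ?_, hy'⟩
      · refine isClosed_closure.mem_of_tendsto hy' ?_
        have : ∀ᶠ m : ℕ in atTop, (1 / (m + 1) : ℝ) < ε / 2 :=
          tendsto_one_div_add_atTop_nhds_zero_nat.eventually (gt_mem_nhds (by positivity))
        refine (this.filter_mono (Nat.hyperfilter_le_atTop)).mono fun m hm => ?_
        exact KE_mono (by linarith) (tag_mul_mem (hpos m).le (hu m (ε / 2) (by positivity)))
      · have := ((continuous_mul_X f).tendsto y).comp hy'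
        refine tendsto_nhds_unique this ?_
        convert hy' using 1
        ext1 m
        simp only [Function.comp, mul_assoc, val_r]
    obtain ⟨y, y1, y2, y3⟩ := hlim h h1
    obtain ⟨z, z1, z2, z3⟩ := hlim k k1
    have ej : y j = z j := by
      refine tendsto_nhds_unique (((continuous_apply j).tendsto y).comp y3) ?_
      convert ((continuous_apply j).tendsto z).comp z3 using 1
      ext1 m
      simp only [Function.comp, Pi.mul_apply, val, h3, k3]
    have ei : y i = z i * (φ i (FreeGroup.of x)).1 := by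
      refine tendsto_nhds_unique (((continuous_apply i).tendsto y).comp y3) ?_
      convert ((Ultrafilter.continuous_mul_left (φ i (FreeGroup.of x)).1).tendsto (z i)).comp
        (((continuous_apply i).tendsto z).comp z3) using 1
      ext1 m
      simp only [Function.comp, Pi.mul_apply, val, h2, k2, mul_assoc, ← CU.val_mul]
      simp [hφ]
    obtain ⟨p, hp⟩ := hlift (f * y) (hGmul _ hfG _ y1) (by rw [← mul_assoc, hff])
      (by rw [mul_assoc, y2])
    obtain ⟨q, hq⟩ := hlift (f * z) (hGmul _ hfG _ z1) (by rw [← mul_assoc, hff])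
      (by rw [mul_assoc, z2])
    refine ⟨q⁻¹ * p, N.mul_mem (N.inv_mem ?_) ?_, ?_, ?_⟩
    · rw [hN, hq]; exact hGmul _ hfG _ z1
    · rw [hN, hp]; exact hGmul _ hfG _ y1
    · rw [Pi.mul_apply, Pi.inv_apply, inv_mul_eq_iff_eq_mul]
      apply Subtype.ext
      have e1 := congrFun hp i
      have e2 := congrFun hq i
      simp only [val, Pi.mul_apply] at e1 e2
      rw [CU.val_mul, e1, e2, ei, mul_assoc]
    · rw [Pi.mul_apply, Pi.inv_apply, inv_mul_eq_one]
      apply Subtype.ext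
      have e1 := congrFun hp j
      have e2 := congrFun hq j
      simp only [val, Pi.mul_apply] at e1 e2
      rw [e1, e2, ej]
  have hpair : ∀ i j, i ≠ j → ∀ y, ∃ ν ∈ N, ν i = φ i y ∧ ν j = 1 := by
    intro i j hij y
    induction y using FreeGroup.induction_on with
    | C1 => exact ⟨1, N.one_mem, by simp, by simp⟩
    | of x => exact hpair0 i j hij x
    | inv_of x hx =>
      obtain ⟨ν, hν, h1, h2⟩ := hx
      exact ⟨ν⁻¹, N.inv_mem hν, by simp [h1], by simp [h2]⟩
    | mul x y hx hy =>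
      obtain ⟨ν, hν, h1, h2⟩ := hx
      obtain ⟨μ, hμ, h3, h4⟩ := hy
      exact ⟨ν * μ, N.mul_mem hν hμ, by simp [h1, h3], by simp [h2, h4]⟩
  have hword : ∀ l : List (Aff d), val (fun i => φ i (word (a i) l)) ∈ KK a (wt l) := by
    intro l
    induction l with
    | nil => simp only [word_nil, map_one]; exact hfG
    | cons ψ l ih =>
      simp only [word_cons, map_mul, wt_cons]
      exact KK_mul (hcol ψ) ih
  obtain ⟨b, c, h1, h2, h3⟩ := exact_relation a ha hT (Fintype.card ι) hα hβ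
  have hk := N.inv_mem (LC_in_N N φ hdg hpair _ h1)
  refine ⟨_, h3 ▸ hword c, ?_⟩
  have := KK_mul (hword b) hk
  rw [h2, add_zero, ← val_mul] at this
  convert this using 2
  ext i
  simp

lemma untag {δ : ℝ} :
    ∃ Θ : (ι → Ultrafilter SW) → (ι → Ultrafilter SW), ∀ W : Matrix (Fin d) (Fin d) ℝ,
      ∀ y ∈ KE a W δ, Θ y ∈ KE a (W + δ • (1 : Matrix (Fin d) (Fin d) ℝ)) 0 := by
  let θ : ι → SW → SW := fun i s =>
    (s.1 * FreeMonoid.ofList ((padI d (δ - s.2.toAdd)).map (ev (a i))), 1)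
  refine ⟨fun y i => (y i).map (θ i), fun W y hy => ?_⟩
  refine map_mem_closure (f := fun (y : ι → Ultrafilter SW) i => (y i).map (θ i))
    (continuous_pi fun i => (continuous_umap _).comp (continuous_apply i)) hy ?_
  rintro _ ⟨τ, ξ, h0, h1, h2, rfl⟩
  refine ⟨τ ++ padI d (δ - ξ), 0, le_rfl, le_rfl, ?_, ?_⟩
  · rw [wt_append, h2, wt_padI (by linarith), sub_smul, zero_smul]; abel
  · ext1 i
    simp [pt, θ]

theorem stage_two [Fintype ι] [DecidableEq ι] (ha : Function.Injective a) (hT : TC a)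
    {κ : Type*} [Finite κ] (C : FreeMonoid ℝ → κ) :
    ∃ (τ : List (Aff d)) (k : κ), wt τ = 1 ∧
      ∀ i, C (FreeMonoid.ofList (τ.map (ev (a i)))) = k := by
  let K : ℝ → Set (ι → Ultrafilter SW) := fun s => KE a (s • (1 : Matrix (Fin d) (Fin d) ℝ)) 0
  have Kmul : ∀ s t x y, x ∈ K s → y ∈ K t → x * y ∈ K (s + t) := fun s t x y hx hy => by
    simpa [K, add_smul] using KE_mul hx hy
  have h2 : ∀ α β : ℝ, 0 < α → 0 < β → ∃ y, y ∈ K α ∧ y ∈ K (α + β) := by
    intro α β hα hβ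
    obtain ⟨y, y1, y2⟩ := stage_one ha hT (α := α / 2) (β := α / 2 + β) (by positivity)
      (by linarith)
    obtain ⟨Θ, hΘ⟩ := untag (a := a) (δ := α / 2)
    refine ⟨Θ y, ?_, ?_⟩
    · have := hΘ _ y (y1 _ (by positivity))
      rwa [← add_smul, add_halves] at this
    · have := hΘ _ y (y2 _ (by positivity))
      rwa [← add_smul, show α / 2 + β + α / 2 = α + β by ring] at this
  have h3 : ∀ l : List ℝ, (∀ s ∈ l, 0 < s) → ∀ ε : ℝ, 0 < ε →
      ∃ y, y ∈ K ε ∧ ∀ s ∈ l, y ∈ K (ε + s) := by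
    intro l
    induction l with
    | nil => intro _ ε hε; obtain ⟨y, hy, -⟩ := h2 ε 1 hε one_pos; exact ⟨y, hy, by simp⟩
    | cons s l ih =>
      intro hl ε hε
      obtain ⟨y, y1, y2⟩ := h2 (ε / 2) s (by positivity) (hl s (by simp))
      obtain ⟨z, z1, z2⟩ := ih (fun t ht => hl t (by simp [ht])) (ε / 2) (by positivity)
      refine ⟨y * z, by simpa using Kmul _ _ _ _ y1 z1, fun t ht => ?_⟩
      rcases List.mem_cons.1 ht with rfl | ht
      · convert Kmul _ _ _ _ y2 z1 using 2; ring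
      · convert Kmul _ _ _ _ y1 (z2 t ht) using 2; ring
  have h4 : ∃ y, ∀ s : ℝ, 0 < s → y ∈ K s := by
    obtain ⟨y, -, hy⟩ := isCompact_univ.inter_iInter_nonempty
      (fun s : {s : ℝ // 0 < s} => K s.1) (fun s => isClosed_closure) (by
        intro u
        obtain ⟨ε, hε, hu⟩ : ∃ ε : ℝ, 0 < ε ∧ ∀ s ∈ u, ε < s.1 := by
          induction u using Finset.induction_on with
          | empty => exact ⟨1, one_pos, by simp⟩
          | insert s u _ ih =>
            obtain ⟨ε, hε, hu⟩ := ih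
            refine ⟨min ε (s.1 / 2), lt_min hε (half_pos s.2), fun t ht => ?_⟩
            rcases Finset.mem_insert.1 ht with rfl | ht
            · exact lt_of_le_of_lt (min_le_right _ _) (half_lt_self t.2)
            · exact lt_of_le_of_lt (min_le_left _ _) (hu t ht)
        obtain ⟨y, -, hy⟩ := h3 (u.toList.map fun s => s.1 - ε) (by
          intro s hs
          obtain ⟨t, ht, rfl⟩ := List.mem_map.1 hs
          exact sub_pos.2 (hu t (by simpa using ht))) ε hε
        refine ⟨y, trivial, ?_⟩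
        simp only [Set.mem_iInter]
        intro s hs
        simpa using hy (s.1 - ε) (List.mem_map.2 ⟨s, by simpa using hs, rfl⟩))
    exact ⟨y, fun s hs => Set.mem_iInter.1 hy ⟨s, hs⟩⟩
  let D : Set (Ultrafilter SW) := closure (Set.range fun u : FreeMonoid ℝ => pure (u, 1))
  have Dmul : ∀ x ∈ D, ∀ y ∈ D, x * y ∈ D := by
    intro x hx y hy
    have h1 : ∀ x ∈ Set.range fun u : FreeMonoid ℝ => (pure (u, 1) : Ultrafilter SW),
        x * y ∈ D := by
      rintro _ ⟨u, rfl⟩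
      refine map_mem_closure (f := fun y : Ultrafilter SW => pure (u, 1) * y) ?_ hy ?_
      · simp only [pure_mul_eq]; exact continuous_umap _
      · rintro _ ⟨v, rfl⟩
        exact ⟨u * v, by simp [pure_mul_pure']⟩
    have := map_mem_closure (Ultrafilter.continuous_mul_left y) hx h1
    rwa [closure_closure] at this
  obtain ⟨e, heD, hee, hmin⟩ := exists_min_idem Ultrafilter.continuous_mul_left D
    isClosed_closure ⟨_, subset_closure ⟨1, rfl⟩⟩ Dmul
  have he0 : (fun _ : ι => e) ∈ K 0 := by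
    refine map_mem_closure (f := fun (e : Ultrafilter SW) (_ : ι) => e)
      (continuous_pi fun _ => continuous_id) heD ?_
    rintro _ ⟨u, rfl⟩
    refine ⟨u.toList.map cst, 0, le_rfl, le_rfl, ?_, ?_⟩
    · simp [wt, wt1, cst, Function.comp_def]
    · ext1 i
      simp [pt, Function.comp_def]
  have hKD : ∀ s, ∀ y ∈ K s, ∀ i, y i ∈ D := by
    intro s y hy i
    refine map_mem_closure (f := fun y : ι → Ultrafilter SW => y i) (continuous_apply i) hy ?_
    rintro _ ⟨τ, ξ, h0, h1, -, rfl⟩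
    obtain rfl : ξ = 0 := le_antisymm h1 h0
    exact ⟨_, rfl⟩
  obtain ⟨y0, hy0⟩ := h4
  let Ω : Set (ι → Ultrafilter SW) :=
    (⋂ s : ℝ, ⋂ _ : 0 < s, K s) ∩ {y | y * (fun _ => e) = y}
  have hΩ : ∀ y, y ∈ Ω ↔ (∀ s : ℝ, 0 < s → y ∈ K s) ∧ y * (fun _ => e) = y := fun y => by
    simp [Ω]
  obtain ⟨h, hh, hhh⟩ := exists_idempotent_in_compact_subsemigroup continuous_mul_X Ω
    ⟨y0 * fun _ => e, (hΩ _).2 ⟨fun s hs => by simpa using Kmul _ _ _ _ (hy0 s hs) he0, by
      rw [mul_assoc]; congr 1; ext1 i; exact hee⟩⟩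
    ((isClosed_iInter fun s => isClosed_iInter fun _ => isClosed_closure).inter
      (isClosed_eq (continuous_mul_X _) continuous_id)).isCompact
    (fun x hx y hy => by
      rw [hΩ] at hx hy ⊢
      refine ⟨fun s hs => ?_, by rw [mul_assoc, hy.2]⟩
      simpa using Kmul _ _ _ _ (hx.1 (s / 2) (by positivity)) (hy.1 (s / 2) (by positivity)))
  rw [hΩ] at hh
  have he1 : (fun _ : ι => e) ∈ K 1 := by
    have e1 : (fun _ : ι => e) * h = fun _ => e := by
      ext1 i
      obtain ⟨x, -, hx⟩ := hmin (h i) (hKD 1 h (hh.1 1 one_pos) i)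
      have e2 : h i * e = h i := congrFun hh.2 i
      have e3 : h i * h i = h i := congrFun hhh i
      rw [e2] at hx
      rw [Pi.mul_apply, ← hx, mul_assoc, e3]
    have := Kmul _ _ _ _ he0 (hh.1 1 one_pos)
    rwa [e1, zero_add] at this
  obtain ⟨k, hk⟩ : ∃ k, ∀ᶠ s : SW in e, C s.1 = k :=
    Ultrafilter.eventually_exists_iff.1 (Eventually.of_forall fun s => ⟨_, rfl⟩)
  have hopen : IsOpen {x : ι → Ultrafilter SW | ∀ i, {s : SW | C s.1 = k} ∈ x i} := by
    simp only [Set.ofPred_forall]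
    exact isOpen_iInter_of_finite fun i =>
      (ultrafilter_isOpen_basic {s : SW | C s.1 = k}).preimage
        (f := fun y : ι → Ultrafilter SW => y i) (continuous_apply i)
  obtain ⟨x, hx, τ, ξ, h0, h1, hw, rfl⟩ := mem_closure_iff.1 he1 _ hopen (fun _ => hk)
  obtain rfl : ξ = 0 := le_antisymm h1 h0
  exact ⟨τ, k, by simpa using hw, fun i => by simpa [pt] using hx i⟩

end Vale.Agent.P058
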